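import Vale.Agent.Lib.P262C.Lift

open Finset

namespace Vale.Agent.Lib.P262C

variable {E : Type*} [NormedAddCommGroup E] [NormedSpace ℝ E]

lemma sum_ite_getD (L : List Bool) : ∀ K, L.length = K →
    ∑ π ∈ range K, (if L.getD π false then 1 else 0) = L.count true := by
  induction L with
  | nil =>
    intro K h
    subst h
    simp
  | cons a L ih =>
    intro K h
    subst h
    simp only [List.length_cons]
    rw [Finset.sum_range_succ']
    simp only [List.getD_cons_succ, List.getD_cons_zero]
    rw [ih _ rfl]
    cases a <;> simp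

omit [NormedSpace ℝ E] in
lemma take_map_sum_getD {α : Type*} (d₀ : α) (v : α → E) (L : List α) :
    ∀ n, n ≤ L.length → ((L.map v).take n).sum = ∑ i ∈ range n, v (L.getD i d₀) := by
  induction L with
  | nil =>
    intro n h
    have : n = 0 := by simpa using h
    subst this
    simp
  | cons a L ih =>
    intro n h
    cases n with
    | zero => simp
    | succ n =>
      simp only [List.length_cons] at h
      rw [Finset.sum_range_succ']
      simp only [List.map_cons, List.take_succ_cons, List.sum_cons, List.getD_cons_zero,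
        List.getD_cons_succ]
      rw [ih n (by omega), add_comm]

/-- **Distribution of the remainders.** For each colour `c` with vector `vec c`, we distribute the
`zc c % K` remainders over the `K` periods, so that the error is small along all the periods. -/
lemma bits_lemma {κ : Type*} [DecidableEq κ] (C : Finset κ) (vec : κ → E)
    (hvec : ∀ c ∈ C, ‖vec c‖ ≤ 1) (zc tc : κ → ℕ) (T J : ℕ) {σ : ℝ} {N : ℕ}
    (hσ : SignOracle E N σ) (hN : C.card * 2 ^ J ≤ N) :
    ∃ bt : κ → ℕ → Bool,
      (∀ c ∈ C, ∑ π ∈ range (2 ^ J), (if bt c π then 1 else 0) = zc c % 2 ^ J) ∧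
      (∀ c ∈ C, ∀ π, bt c π = true → zc c % 2 ^ J ≠ 0) ∧
      (∀ π < 2 ^ J, ∀ t ≤ T, ‖∑ c ∈ C, ∑ i ∈ range (π + (if tc c < t then 1 else 0)),
        (if bt c i then (1 - ((zc c % 2 ^ J : ℕ) : ℝ) / (2 ^ J : ℕ))
          else - (((zc c % 2 ^ J : ℕ) : ℝ) / (2 ^ J : ℕ))) • vec c‖ ≤ 4 * σ) := by
  classical
  set K := 2 ^ J with hK
  have hKpos : 0 < K := by positivity
  have hKr : (0:ℝ) < (K:ℝ) := by exact_mod_cast hKpos
  set r : κ → ℕ := fun c => zc c % K with hr
  have hrlt : ∀ c, r c < K := fun c => Nat.mod_lt _ hKpos
  set f : κ → ℝ := fun c => (r c : ℝ) / (K:ℝ) with hf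
  have hf0 : ∀ c, 0 ≤ f c := fun c => by positivity
  have hf1 : ∀ c, f c ≤ 1 := fun c => by
    rw [hf, div_le_one hKr]
    exact_mod_cast (hrlt c).le
  set val : κ → Bool → E := fun c b => (if b then 1 - f c else - f c) • vec c with hval
  set bit0 : κ → List Bool := fun c => List.replicate (r c) true ++ List.replicate (K - r c) false
    with hbit0
  set q : κ → List E := fun c => (bit0 c).map (val c) with hq
  have hbit0len : ∀ c, (bit0 c).length = K := fun c => by
    simp only [hbit0, List.length_append, List.length_replicate]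
    have := hrlt c
    omega
  have hqlen : ∀ c, (q c).length = K := fun c => by
    simp only [hq, List.length_map, hbit0len]
  have hqsum : ∀ c, (q c).sum = 0 := by
    intro c
    simp only [hq, hbit0, List.map_append, List.map_replicate, List.sum_append, List.sum_replicate,
      hval, if_true, Bool.false_eq_true, if_false]
    rw [← Nat.cast_smul_eq_nsmul ℝ, ← Nat.cast_smul_eq_nsmul ℝ, smul_smul, smul_smul, ← add_smul]
    have : (r c : ℝ) * (1 - f c) + ((K - r c : ℕ) : ℝ) * (- f c) = 0 := by
      rw [Nat.cast_sub (hrlt c).le]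
      simp only [hf]
      field_simp
      ring
    rw [this, zero_smul]
  have hqnorm : ∀ c ∈ C, ∀ v ∈ q c, ‖v‖ ≤ 1 := by
    intro c hc v hv
    obtain ⟨b, _, rfl⟩ := List.mem_map.1 hv
    simp only [hval]
    rw [norm_smul]
    have h1 : ‖(if b = true then 1 - f c else - f c)‖ ≤ 1 := by
      have h2 := hf0 c
      have h3 := hf1 c
      split_ifs
      · rw [Real.norm_eq_abs, abs_le]
        constructor <;> linarith
      · rw [Real.norm_eq_abs, abs_le]
        constructor <;> linarith
    calc _ ≤ 1 * 1 := mul_le_mul h1 (hvec c hc) (norm_nonneg _) zero_le_one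
      _ = 1 := by ring
  obtain ⟨q', hq', hb⟩ := periodic C T one_pos hσ J (fun _ => 1)
    (fun t c => if tc c < t then 1 else 0) q 0
    (fun t t' htt c _ => by
      by_cases h1 : tc c < t
      · have h2 : tc c < t' := by omega
        simp [h1, h2]
      · simp only [h1, if_false]
        omega)
    (fun t c _ => by split_ifs <;> omega)
    (fun c _ => by rw [hqlen c, mul_one])
    (fun c _ => hqsum c) hqnorm
    (by
      rw [Finset.sum_congr rfl (fun c _ => hqlen c), Finset.sum_const, smul_eq_mul]
      exact hN)
    (fun t _ => by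
      rw [norm_le_zero_iff]
      apply Finset.sum_eq_zero
      intro c _
      by_cases h1 : tc c < t
      · simp only [h1, if_true, mul_one]
        rw [← hK, ← hqlen c, List.take_length, hqsum c]
      · simp [h1])
  have hL : ∀ c, c ∈ C → ∃ L : List Bool, L.Perm (bit0 c) ∧ L.map (val c) = q' c :=
    fun c hc => Vale.Agent.Lib.P262.exists_perm_map (val c) (bit0 c) (q' c) (hq' c hc)
  choose! L hLp hLm using hL
  have hLlen : ∀ c ∈ C, (L c).length = K := fun c hc => by
    rw [(hLp c hc).length_eq, hbit0len c]
  refine ⟨fun c π => (L c).getD π false, ?_, ?_, ?_⟩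
  · intro c hc
    rw [sum_ite_getD (L c) K (hLlen c hc), (hLp c hc).count_eq]
    simp only [hbit0, List.count_append, List.count_replicate]
    simp
    rfl
  · intro c hc π hπ hzero
    replace hπ : (L c).getD π false = true := hπ
    have hπlt : π < (L c).length := by
      by_contra hcon
      rw [List.getD_eq_default _ _ (by omega)] at hπ
      simp at hπ
    rw [List.getD_eq_getElem _ _ hπlt] at hπ
    have hmem : true ∈ L c := hπ ▸ List.getElem_mem hπlt
    have hmem2 := (hLp c hc).subset hmem
    simp only [hbit0, List.mem_append, List.mem_replicate] at hmem2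
    have hr0 : r c = 0 := hzero
    rcases hmem2 with h | h
    · omega
    · simp at h
  · intro π hπ t ht
    have h1 := hb π hπ t ht
    simp only [zero_div, mul_one, zero_add] at h1
    have e : Dev C q' (fun c => π + if tc c < t then 1 else 0)
        = ∑ c ∈ C, ∑ i ∈ range (π + (if tc c < t then 1 else 0)),
          (if (L c).getD i false then (1 - ((zc c % K : ℕ) : ℝ) / (K : ℕ))
            else - (((zc c % K : ℕ) : ℝ) / (K : ℕ))) • vec c := by
      apply Finset.sum_congr rfl
      intro c hc
      rw [← hLm c hc, take_map_sum_getD false (val c) (L c)]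
      rw [hLlen c hc]
      show π + (if tc c < t then 1 else 0) ≤ K
      split_ifs <;> omega
    rw [← e]
    exact h1.trans (le_of_eq (by ring))

end Vale.Agent.Lib.P262C
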