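import Mathlib

open Finset MeasureTheory

namespace Vale.Agent.Lib.P262C

variable {d : ℕ}

/-- a maximal separated subset of a list -/
lemma greedy_net {ρ : ℝ} (hρ : 0 ≤ ρ) (l : List (EuclideanSpace ℝ (Fin d))) :
    ∃ Cn : Finset (EuclideanSpace ℝ (Fin d)), (∀ v ∈ l, ∃ γ ∈ Cn, ‖v - γ‖ ≤ ρ) ∧ (∀ γ ∈ Cn, γ ∈ l) ∧
      (∀ γ ∈ Cn, ∀ γ' ∈ Cn, γ ≠ γ' → ρ < ‖γ - γ'‖) := by
  classical
  induction l with
  | nil => exact ⟨∅, by simp, by simp, by simp⟩
  | cons a l ih =>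
    obtain ⟨Cn, h1, h2, h3⟩ := ih
    by_cases h : ∃ γ ∈ Cn, ‖a - γ‖ ≤ ρ
    · refine ⟨Cn, ?_, fun γ hγ => List.mem_cons_of_mem _ (h2 γ hγ), h3⟩
      intro v hv
      rcases List.mem_cons.1 hv with rfl | hv
      · exact h
      · exact h1 v hv
    · push Not at h
      refine ⟨insert a Cn, ?_, ?_, ?_⟩
      · intro v hv
        rcases List.mem_cons.1 hv with rfl | hv
        · refine ⟨v, Finset.mem_insert_self _ _, ?_⟩
          simpa using hρ
        · obtain ⟨γ, hγ, h4⟩ := h1 v hv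
          exact ⟨γ, Finset.mem_insert_of_mem hγ, h4⟩
      · intro γ hγ
        rcases Finset.mem_insert.1 hγ with rfl | hγ
        · simp
        · exact List.mem_cons_of_mem _ (h2 γ hγ)
      · intro γ hγ γ' hγ' hne
        rcases Finset.mem_insert.1 hγ with h5 | h5
        · rcases Finset.mem_insert.1 hγ' with h6 | h6
          · exact absurd (h5.trans h6.symm) hne
          · rw [h5]
            exact h γ' h6
        · rcases Finset.mem_insert.1 hγ' with h6 | h6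
          · rw [h6, norm_sub_rev]
            exact h γ h5
          · exact h3 γ h5 γ' h6 hne

/-- **Volumetric bound** for a separated set in the unit ball. -/
lemma net_card {ρ : ℝ} (hρ : 0 < ρ) (Cn : Finset (EuclideanSpace ℝ (Fin d)))
    (hunit : ∀ γ ∈ Cn, ‖γ‖ ≤ 1) (hsep : ∀ γ ∈ Cn, ∀ γ' ∈ Cn, γ ≠ γ' → ρ < ‖γ - γ'‖) :
    (Cn.card : ℝ) ≤ (1 + 2 / ρ) ^ d := by
  classical
  set μ : Measure (EuclideanSpace ℝ (Fin d)) := volume with hμ
  have hball : ∀ (x : EuclideanSpace ℝ (Fin d)) {r : ℝ}, 0 < r →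
      μ (Metric.ball x r) = ENNReal.ofReal (r ^ d) * μ (Metric.ball 0 1) := by
    intro x r hr
    have := Measure.addHaar_ball_of_pos μ x hr
    simpa using this
  set M := μ (Metric.ball (0 : EuclideanSpace ℝ (Fin d)) 1) with hM
  have hM0 : M ≠ 0 := (Metric.measure_ball_pos μ _ one_pos).ne'
  have hMt : M ≠ ⊤ := (measure_ball_lt_top (μ := μ)).ne
  have hr : 0 < ρ / 2 := by positivity
  have hdisj : (Cn : Set (EuclideanSpace ℝ (Fin d))).PairwiseDisjoint (fun γ => Metric.ball γ (ρ / 2)) := by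
    intro γ hγ γ' hγ' hne
    apply Metric.ball_disjoint_ball
    rw [dist_eq_norm]
    have := hsep γ hγ γ' hγ' hne
    linarith
  have hsub : (⋃ γ ∈ Cn, Metric.ball γ (ρ / 2)) ⊆ Metric.ball (0 : EuclideanSpace ℝ (Fin d)) (1 + ρ / 2) := by
    intro y hy
    simp only [Set.mem_iUnion, exists_prop] at hy
    obtain ⟨γ, hγ, hy⟩ := hy
    rw [Metric.mem_ball, dist_eq_norm] at hy
    rw [Metric.mem_ball, dist_zero_right]
    have h1 := hunit γ hγ
    have h2 : ‖y‖ ≤ ‖y - γ‖ + ‖γ‖ := by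
      have := norm_add_le (y - γ) γ
      simpa using this
    linarith
  have hmeas := measure_mono (μ := μ) hsub
  rw [measure_biUnion_finset hdisj (fun γ _ => Metric.isOpen_ball.measurableSet),
    Finset.sum_congr rfl (fun γ _ => hball γ hr), hball 0 (by positivity), Finset.sum_const,
    nsmul_eq_mul, ← mul_assoc] at hmeas
  have h2 := (ENNReal.mul_le_mul_iff_left hM0 hMt).1 hmeas
  have h3 : ((Cn.card : ℝ) * (ρ / 2) ^ d) ≤ (1 + ρ / 2) ^ d := by
    have h4 : ENNReal.ofReal ((Cn.card : ℝ) * (ρ / 2) ^ d) ≤ ENNReal.ofReal ((1 + ρ / 2) ^ d) := by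
      rw [ENNReal.ofReal_mul (by positivity), ENNReal.ofReal_natCast]
      exact h2
    exact (ENNReal.ofReal_le_ofReal_iff (by positivity)).1 h4
  have h5 : (0:ℝ) < (ρ / 2) ^ d := by positivity
  have e : (1 + 2 / ρ) ^ d = (1 + ρ / 2) ^ d / (ρ / 2) ^ d := by
    rw [← div_pow]
    congr 1
    field_simp
    ring
  rw [e, le_div_iff₀ h5]
  exact h3

/-- a net of the unit ball (restricted to a list) of volumetric size -/
lemma exists_net {ρ : ℝ} (hρ : 0 < ρ) (l : List (EuclideanSpace ℝ (Fin d))) (hl : ∀ v ∈ l, ‖v‖ ≤ 1) :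
    ∃ Cn : Finset (EuclideanSpace ℝ (Fin d)), (∀ v ∈ l, ∃ γ ∈ Cn, ‖v - γ‖ ≤ ρ) ∧
      (Cn.card : ℝ) ≤ (1 + 2 / ρ) ^ d := by
  obtain ⟨Cn, h1, h2, h3⟩ := greedy_net hρ.le l
  exact ⟨Cn, h1, net_card hρ Cn (fun γ hγ => hl γ (h2 γ hγ)) h3⟩

end Vale.Agent.Lib.P262C
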