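import Vale.Agent.Lib.P262C.Few2
import Vale.Agent.Lib.P262C.Net

open Finset

namespace Vale.Agent.Lib.P262C

open Vale.Agent.Lib.P262

variable {d : ℕ}

lemma map_sub_sum (L : List (V d)) (c : V d) :
    (L.map (fun v => v - c)).sum = L.sum - (L.length : ℝ) • c := by
  induction L with
  | nil => simp
  | cons a L ih =>
    simp only [List.map_cons, List.sum_cons, ih, List.length_cons]
    push_cast
    rw [add_smul, one_smul]
    abel

/-- the data of one colour -/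
lemma colour_data (Y : List (V d)) (hunit : ∀ v ∈ Y, ‖v‖ ≤ 1) {δ : ℝ} (hδ : 0 < δ)
    (hclose : ∀ v ∈ Y, ∀ u ∈ Y, ‖v - u‖ ≤ δ) :
    ∃ (c : V d) (Q : List (V d)), ‖c‖ ≤ 1 ∧ Q.Perm Y ∧ (Y.length : ℝ) • c = Y.sum ∧
      (∀ v ∈ Y, ‖v - c‖ ≤ δ) ∧ ∀ k, ‖(Q.take k).sum - ((Q.take k).length : ℝ) • c‖ ≤ δ * d := by
  by_cases hY : Y = []
  · subst hY
    refine ⟨0, [], by simp, List.Perm.refl _, by simp, by simp, fun k => ?_⟩
    simp only [List.take_nil, List.sum_nil, List.length_nil, Nat.cast_zero, zero_smul, sub_zero,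
      norm_zero]
    positivity
  · have hlen : 0 < Y.length := List.length_pos_iff.2 hY
    have hlen' : (0:ℝ) < Y.length := by exact_mod_cast hlen
    obtain ⟨h1, Q, hQ, hb⟩ := color_queue Y hY hunit δ hδ hclose
    refine ⟨(1 / (Y.length : ℝ)) • Y.sum, Q, h1, hQ, ?_, ?_, hb⟩
    · rw [smul_smul, mul_one_div_cancel hlen'.ne', one_smul]
    · intro v hv
      have h2 := smul_sub_sum Y v δ (hclose v hv)
      have e : v - (1 / (Y.length : ℝ)) • Y.sum = (1 / (Y.length : ℝ)) • ((Y.length : ℝ) • v - Y.sum) := by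
        rw [smul_sub, smul_smul, one_div_mul_cancel hlen'.ne', one_smul]
      rw [e, norm_smul, Real.norm_eq_abs, abs_of_pos (by positivity), div_mul_eq_mul_div, one_mul,
        div_le_iff₀ hlen']
      linarith

/-- **Lifting a word on colours.** -/
lemma colored_gen {κ : Type*} [DecidableEq κ] {ρ : ℝ} (hρ : 0 < ρ) (C' : Finset κ) (c' : κ → V d)
    (a : κ → ℕ) (q : κ → List (V d)) (Λ J : ℕ) (hC'card : C'.card ≤ Λ) (hJ : Λ * (d + 1) ≤ 2 ^ J)
    (hc'unit : ∀ c ∈ C', ‖c' c‖ ≤ 1) (hrel : ∑ c ∈ C', a c • c' c = 0)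
    (hqlen : ∀ c ∈ C', (q c).length = 2 ^ J * a c) (hqsum : ∀ c ∈ C', (q c).sum = 0)
    (hqnorm : ∀ c ∈ C', ∀ v ∈ q c, ‖v‖ ≤ 2 * ρ)
    (hqsmall : ∀ c ∈ C', ∀ n, ‖((q c).take n).sum‖ ≤ 2 * ρ * d)
    {R₁ σ : ℝ}
    (hFew : ∀ l₁ : List (V d), (∀ v ∈ l₁, ‖v‖ ≤ 1) → l₁.sum = 0 → ∀ S : Finset (V d),
      (∀ v ∈ l₁, v ∈ S) → S.card ≤ Λ → ∃ l' : List (V d), l'.Perm l₁ ∧ ∀ k, ‖(l'.take k).sum‖ ≤ R₁)
    {N : ℕ} (hN : ∑ c ∈ C', (q c).length ≤ N) (hσ : SignOracle (V d) N σ) :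
    ∃ Z : List (V d), (Z : Multiset (V d))
        = ∑ c ∈ C', (((q c).map (fun u => c' c + u) : List (V d)) : Multiset (V d)) ∧
      ∀ k, ‖(Z.take k).sum‖ ≤ R₁ + (2 * ρ + 2 * (2 * (2 * ρ) * σ)) := by
  classical
  set K := 2 ^ J with hK
  have hKpos : 0 < K := by positivity
  have hKr : (0:ℝ) < K := by exact_mod_cast hKpos
  set l₁ : List κ := (∑ c ∈ C', Multiset.replicate (a c) c).toList with hl₁
  have hl₁c : (l₁ : Multiset κ) = ∑ c ∈ C', Multiset.replicate (a c) c :=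
    Multiset.coe_toList _
  have hcount : ∀ c ∈ C', l₁.count c = a c := by
    intro c hc
    rw [← Multiset.coe_count, hl₁c, Multiset.count_sum']
    rw [Finset.sum_eq_single c]
    · simp
    · intro b _ hb
      rw [Multiset.count_replicate, if_neg hb]
    · intro h
      exact absurd hc h
  have hl₁mem : ∀ w ∈ l₁, w ∈ C' := by
    intro w hw
    have h1 : w ∈ (l₁ : Multiset κ) := by simpa using hw
    rw [hl₁c, Multiset.mem_sum] at h1
    obtain ⟨c, hc, h2⟩ := h1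
    rw [Multiset.eq_of_mem_replicate h2]
    exact hc
  have hl₁sum : (l₁.map c').sum = 0 := by
    rw [list_sum_count C' c' l₁ hl₁mem, Finset.sum_congr rfl (fun c hc => by rw [hcount c hc])]
    exact hrel
  obtain ⟨l'', hl''p, hl''b⟩ := hFew (l₁.map c')
    (by
      intro v hv
      obtain ⟨w, hw, rfl⟩ := List.mem_map.1 hv
      exact hc'unit w (hl₁mem w hw))
    hl₁sum (C'.image c')
    (by
      intro v hv
      obtain ⟨w, hw, rfl⟩ := List.mem_map.1 hv
      exact Finset.mem_image_of_mem _ (hl₁mem w hw))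
    (Finset.card_image_le.trans hC'card)
  obtain ⟨W₁, hW₁p, hW₁m⟩ := exists_perm_map c' l₁ l'' hl''p
  have hW₁count : ∀ c ∈ C', W₁.count c = a c := fun c hc => by
    rw [hW₁p.count_eq, hcount c hc]
  obtain ⟨Z, hZ1, hZ2⟩ := lift_word (N := N) C' c' W₁ (fun w hw => hl₁mem w (hW₁p.subset hw))
    (R₁ := R₁)
    (fun t => by
      rw [List.map_take, hW₁m]
      exact hl''b t)
    (by rw [hW₁m, hl''p.sum_eq, hl₁sum]) J q (δ := 2 * ρ) (by positivity) hσ
    (fun c hc => by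
      rw [hW₁count c hc]
      exact hqlen c hc)
    hqsum hqnorm hN
    (B := (Λ : ℝ) * (2 * ρ * d))
    (fun t _ => by
      unfold Dev
      calc _ ≤ ∑ c ∈ C', ‖((q c).take (2 ^ J * (W₁.take t).count c)).sum‖ := norm_sum_le _ _
        _ ≤ ∑ c ∈ C', (2 * ρ * d) := Finset.sum_le_sum (fun c hc => hqsmall c hc _)
        _ = (C'.card : ℝ) * (2 * ρ * d) := by
            rw [Finset.sum_const, nsmul_eq_mul]
        _ ≤ (Λ : ℝ) * (2 * ρ * d) := by
            apply mul_le_mul_of_nonneg_right _ (by positivity)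
            exact_mod_cast hC'card)
  refine ⟨Z, hZ1, ?_⟩
  intro k
  refine (hZ2 k).trans ?_
  have hB : (Λ : ℝ) * (2 * ρ * d) / (2:ℝ) ^ J ≤ 2 * ρ := by
    have hK' : ((2:ℝ) ^ J) = (K:ℝ) := by
      rw [hK]
      push_cast
      rfl
    rw [hK', div_le_iff₀ hKr]
    have h1 : ((Λ * (d + 1) : ℕ) : ℝ) ≤ K := by exact_mod_cast hJ
    push_cast at h1
    have h2 : (0:ℝ) ≤ Λ := by positivity
    nlinarith
  linarith

/-- **Lifting with a correction letter.** -/
lemma colored_lift {ρ : ℝ} (hρ : 0 < ρ) (Cn : Finset (V d)) (cb : V d → V d) (A : V d → ℕ)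
    (Q : V d → List (V d)) (Λ J : ℕ) (hΛ : Cn.card + 1 ≤ Λ) (hJ : Λ * (d + 1) ≤ 2 ^ J)
    (hcb : ∀ γ ∈ Cn, ‖cb γ‖ ≤ 1) (hQlen : ∀ γ ∈ Cn, (Q γ).length = 2 ^ J * A γ)
    (hQsum : ∀ γ ∈ Cn, (Q γ).sum = ((Q γ).length : ℝ) • cb γ)
    (hQnorm : ∀ γ ∈ Cn, ∀ v ∈ Q γ, ‖v - cb γ‖ ≤ 2 * ρ)
    (hQpref : ∀ γ ∈ Cn, ∀ k, ‖((Q γ).take k).sum - (((Q γ).take k).length : ℝ) • cb γ‖ ≤ 2 * ρ * d)
    {x : V d} (hx : (Λ : ℝ) • x = ∑ γ ∈ Cn, (A γ : ℝ) • cb γ) (hxn : ‖x‖ ≤ 1)
    {R₁ σ : ℝ}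
    (hFew : ∀ l₁ : List (V d), (∀ v ∈ l₁, ‖v‖ ≤ 1) → l₁.sum = 0 → ∀ S : Finset (V d),
      (∀ v ∈ l₁, v ∈ S) → S.card ≤ Λ → ∃ l' : List (V d), l'.Perm l₁ ∧ ∀ k, ‖(l'.take k).sum‖ ≤ R₁)
    {N : ℕ} (hN : ∑ γ ∈ Cn, (Q γ).length + 2 ^ J * Λ ≤ N) (hσ : SignOracle (V d) N σ) :
    ∃ Z : List (V d), (Z : Multiset (V d))
        = ∑ γ ∈ Cn, ((Q γ : List (V d)) : Multiset (V d)) + Multiset.replicate (2 ^ J * Λ) (-x) ∧
      ∀ k, ‖(Z.take k).sum‖ ≤ R₁ + (2 * ρ + 2 * (2 * (2 * ρ) * σ)) := by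
  classical
  set K := 2 ^ J with hK
  set C' : Finset (Option (V d)) := insert none (Cn.map Function.Embedding.some) with hC'
  have hnone : (none : Option (V d)) ∉ Cn.map Function.Embedding.some := by simp
  have hsumC : ∀ {M : Type _} [AddCommMonoid M] (F : Option (V d) → M),
      ∑ c ∈ C', F c = F none + ∑ γ ∈ Cn, F (some γ) := by
    intro M _ F
    rw [hC', Finset.sum_insert hnone, Finset.sum_map]
    rfl
  have hC'card : C'.card ≤ Λ := by
    refine (Finset.card_insert_le _ _).trans ?_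
    rw [Finset.card_map]
    exact hΛ
  have hsome : ∀ c ∈ C', c ≠ none → ∃ γ ∈ Cn, c = some γ := by
    intro c hc hne
    rcases Finset.mem_insert.1 hc with h | h
    · exact absurd h hne
    · obtain ⟨γ, hγ, rfl⟩ := Finset.mem_map.1 h
      exact ⟨γ, hγ, rfl⟩
  set c' : Option (V d) → V d := fun c => c.elim (-x) cb with hc'
  set a : Option (V d) → ℕ := fun c => c.elim Λ A with ha
  set q : Option (V d) → List (V d) :=
    fun c => c.elim (List.replicate (K * Λ) 0) (fun γ => (Q γ).map (fun v => v - cb γ)) with hq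
  have hrel : ∑ c ∈ C', a c • c' c = 0 := by
    rw [hsumC]
    simp only [hc', ha, Option.elim_none, Option.elim_some]
    have e : ∑ γ ∈ Cn, A γ • cb γ = ∑ γ ∈ Cn, (A γ : ℝ) • cb γ :=
      Finset.sum_congr rfl (fun γ _ => (Nat.cast_smul_eq_nsmul ℝ _ _).symm)
    rw [e, ← hx, smul_neg, ← Nat.cast_smul_eq_nsmul ℝ]
    abel
  have hc'unit : ∀ c ∈ C', ‖c' c‖ ≤ 1 := by
    intro c hc
    by_cases hne : c = none
    · subst hne
      simpa [hc'] using hxn
    · obtain ⟨γ, hγ, rfl⟩ := hsome c hc hne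
      exact hcb γ hγ
  have hqsmall : ∀ c ∈ C', ∀ n, ‖((q c).take n).sum‖ ≤ 2 * ρ * d := by
    intro c hc n
    by_cases hne : c = none
    · subst hne
      have : ((q none).take n).sum = 0 := by
        apply List.sum_eq_zero
        intro v hv
        exact List.eq_of_mem_replicate (List.mem_of_mem_take hv)
      rw [this, norm_zero]
      positivity
    · obtain ⟨γ, hγ, rfl⟩ := hsome c hc hne
      simp only [hq, Option.elim_some]
      rw [← List.map_take, map_sub_sum]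
      exact hQpref γ hγ n
  obtain ⟨Z, hZ1, hZ2⟩ := colored_gen (N := N) hρ C' c' a q Λ J hC'card hJ hc'unit hrel
    (fun c hc => by
      by_cases hne : c = none
      · subst hne
        simp [hq, ha, hK]
      · obtain ⟨γ, hγ, rfl⟩ := hsome c hc hne
        simp only [hq, ha, Option.elim_some, List.length_map]
        exact hQlen γ hγ)
    (fun c hc => by
      by_cases hne : c = none
      · subst hne
        simp [hq]
      · obtain ⟨γ, hγ, rfl⟩ := hsome c hc hne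
        simp only [hq, Option.elim_some]
        rw [map_sub_sum, hQsum γ hγ, sub_self])
    (fun c hc v hv => by
      by_cases hne : c = none
      · subst hne
        rw [List.eq_of_mem_replicate hv, norm_zero]
        positivity
      · obtain ⟨γ, hγ, rfl⟩ := hsome c hc hne
        obtain ⟨u, hu, rfl⟩ := List.mem_map.1 hv
        exact hQnorm γ hγ u hu)
    hqsmall hFew
    (by
      rw [hsumC]
      simp only [hq, Option.elim_none, Option.elim_some, List.length_map, List.length_replicate]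
      omega)
    hσ
  refine ⟨Z, ?_, hZ2⟩
  rw [hZ1, hsumC, add_comm]
  congr 1
  · apply Finset.sum_congr rfl
    intro γ _
    simp only [hq, hc', Option.elim_some, List.map_map]
    congr 1
    have : (fun u : V d => cb γ + u) ∘ (fun v : V d => v - cb γ) = id := by
      ext1 v
      simp
    rw [this, List.map_id]
  · simp [hq, hc', Multiset.coe_replicate]

end Vale.Agent.Lib.P262C
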