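import Vale.Agent.Lib.P262C.Bits
import Vale.Agent.Lib.P262.Few

open Finset

namespace Vale.Agent.Lib.P262C

open Vale.Agent.Lib.P262

/-- Euclidean space -/
abbrev V (d : ℕ) := EuclideanSpace ℝ (Fin d)

variable {d : ℕ}

/-- a section of at most `d + 1` letters with given multiplicities -/
lemma piece_word (β : ℝ) (hβ : 0 ≤ β)
    (hOB : ∀ r, 1 ≤ r → r ≤ d + 1 → OrderBound r (20 * r * 103 ^ r) (β * Real.sqrt r))
    (I : Finset (V d)) (hI : ∀ γ ∈ I, ‖γ‖ ≤ 1) (u : V d → ℕ)
    (hsupp : (I.filter (fun γ => 1 ≤ u γ)).card ≤ d + 1) :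
    ∃ W : List (V d), (W : Multiset (V d)) = ∑ γ ∈ I, Multiset.replicate (u γ) γ ∧
      W.sum = ∑ γ ∈ I, (u γ : ℝ) • γ ∧
      ∀ k, ∃ τ : ℝ, 0 ≤ τ ∧ τ ≤ 1 ∧
        ‖(W.take k).sum - τ • ∑ γ ∈ I, (u γ : ℝ) • γ‖ ≤ (5 + 4 * β) * Real.sqrt ((d:ℝ) + 1) := by
  classical
  set I' := I.filter (fun γ => 1 ≤ u γ) with hI'
  have hsub : I' ⊆ I := Finset.filter_subset _ _
  have hzero : ∀ γ ∈ I, γ ∉ I' → u γ = 0 := by
    intro γ hγ h
    by_contra hne
    exact h (Finset.mem_filter.2 ⟨hγ, by omega⟩)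
  obtain ⟨W, τ, h1, h2, _, h4⟩ := section_word β hβ I' (fun γ => γ)
    (fun i hi => hI i (hsub hi)) u (fun i hi => (Finset.mem_filter.1 hi).2)
    (fun r hr1 hr2 => hOB r hr1 (hr2.trans hsupp)) (fun γ => List.replicate (u γ) γ)
    (fun i _ => by simp) 0
    (fun i _ k => by
      rw [sum_of_all_eq _ i (fun v hv => List.eq_of_mem_replicate (List.mem_of_mem_take hv))]
      simp)
  have e1 : ∑ γ ∈ I', (u γ : ℝ) • γ = ∑ γ ∈ I, (u γ : ℝ) • γ := by
    apply Finset.sum_subset hsub
    intro γ hγ hn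
    simp [hzero γ hγ hn]
  have e2 : ∑ γ ∈ I', ((List.replicate (u γ) γ : List (V d)) : Multiset (V d))
      = ∑ γ ∈ I, Multiset.replicate (u γ) γ := by
    have : ∀ γ, ((List.replicate (u γ) γ : List (V d)) : Multiset (V d))
        = Multiset.replicate (u γ) γ := fun γ => rfl
    simp only [this]
    apply Finset.sum_subset hsub
    intro γ hγ hn
    simp [hzero γ hγ hn]
  have hsum : W.sum = ∑ γ ∈ I, (u γ : ℝ) • γ := by
    have h5 := congrArg Multiset.sum h1
    rw [msum, Multiset.sum_coe] at h5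
    rw [h5, ← e1]
    apply Finset.sum_congr rfl
    intro γ _
    rw [List.sum_replicate, Nat.cast_smul_eq_nsmul]
  refine ⟨W, h1.trans e2, hsum, ?_⟩
  rw [← e1]
  have hD : (5 + 4 * β) * Real.sqrt (I'.card) + I'.card * 0 ≤ (5 + 4 * β) * Real.sqrt ((d:ℝ) + 1) := by
    rw [mul_zero, add_zero]
    apply mul_le_mul_of_nonneg_left _ (by positivity)
    apply Real.sqrt_le_sqrt
    exact_mod_cast hsupp
  intro k
  by_cases hk : k ≤ W.length
  · exact ⟨τ k, (h2 k hk).1, (h2 k hk).2, (h4 k hk).trans hD⟩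
  · refine ⟨1, zero_le_one, le_refl _, ?_⟩
    rw [List.take_of_length_le (by omega), hsum, ← e1, one_smul, sub_self, norm_zero]
    positivity

section main

variable (I : Finset (V d)) (P K : ℕ) (z : ℕ → V d → ℕ) (bt : ℕ × V d → ℕ → Bool)

/-- multiplicity of a letter in the piece number `j` of the period `π` -/
def uct (π j : ℕ) (γ : V d) : ℕ := z j γ / K + (if bt (j, γ) π then 1 else 0)

/-- signed remainder -/
noncomputable def wt (c : ℕ × V d) (i : ℕ) : V d :=
  (if bt c i then (1 - ((z c.1 c.2 % K : ℕ) : ℝ) / (K : ℕ))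
    else - (((z c.1 c.2 % K : ℕ) : ℝ) / (K : ℕ))) • c.2

/-- accumulated signed remainders -/
noncomputable def Dv (π t : ℕ) : V d :=
  ∑ c ∈ (range P) ×ˢ I, ∑ i ∈ range (π + (if c.1 < t then 1 else 0)), wt K z bt c i

/-- the sum of a piece of the relation -/
noncomputable def sj (j : ℕ) : V d := ∑ γ ∈ I, (z j γ : ℝ) • γ

/-- the sum of a piece of the word -/
noncomputable def sp (π j : ℕ) : V d := ∑ γ ∈ I, (uct K z bt π j γ : ℝ) • γ

lemma Dv_succ {π j : ℕ} (hj : j < P) :
    Dv I P K z bt π (j + 1) = Dv I P K z bt π j + ∑ γ ∈ I, wt K z bt (j, γ) π := by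
  have e1 : ∑ γ ∈ I, wt K z bt (j, γ) π
      = ∑ c ∈ (range P) ×ˢ I, if c.1 = j then wt K z bt c π else 0 := by
    rw [Finset.sum_product]
    rw [Finset.sum_eq_single j]
    · simp
    · intro b _ hb
      simp [hb]
    · intro h
      exact absurd (Finset.mem_range.2 hj) h
  rw [e1]
  simp only [Dv]
  rw [← Finset.sum_add_distrib]
  apply Finset.sum_congr rfl
  intro c _
  rcases lt_trichotomy c.1 j with h | h | h
  · have h1 : c.1 < j + 1 := by omega
    have h2 : c.1 ≠ j := by omega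
    simp [h, h1, h2]
  · have h1 : c.1 < j + 1 := by omega
    have h2 : ¬ c.1 < j := by omega
    rw [if_pos h1, if_neg h2, if_pos h, add_zero, Finset.sum_range_succ]
  · have h1 : ¬ c.1 < j + 1 := by omega
    have h2 : ¬ c.1 < j := by omega
    have h3 : c.1 ≠ j := by omega
    simp [h1, h2, h3]

lemma Dv_period (π : ℕ) : Dv I P K z bt π P = Dv I P K z bt (π + 1) 0 := by
  simp only [Dv]
  apply Finset.sum_congr rfl
  intro c hc
  have h1 : c.1 < P := Finset.mem_range.1 (Finset.mem_product.1 hc).1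
  simp [h1]

lemma Dv_zero : Dv I P K z bt 0 0 = 0 := by
  simp [Dv]

lemma sj_sp (hK : 0 < K) (π j : ℕ) :
    (K:ℝ)⁻¹ • sj I z j + ∑ γ ∈ I, wt K z bt (j, γ) π = sp I K z bt π j := by
  have hKr : (K:ℝ) ≠ 0 := by
    have : (0:ℝ) < K := by exact_mod_cast hK
    exact this.ne'
  simp only [sj, sp, Finset.smul_sum, ← Finset.sum_add_distrib]
  apply Finset.sum_congr rfl
  intro γ _
  simp only [wt, uct, smul_smul, ← add_smul]
  congr 1
  have e : (z j γ : ℝ) = K * ((z j γ / K : ℕ) : ℝ) + ((z j γ % K : ℕ) : ℝ) := by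
    have := Nat.div_add_mod (z j γ) K
    exact_mod_cast this.symm
  rw [e]
  split_ifs
  · push_cast
    field_simp
    ring
  · push_cast
    field_simp
    ring

/-- the word built from the pieces -/
def fullW (W : ℕ → ℕ → List (V d)) (x : V d) : List (V d) :=
  (List.range K).flatMap (fun π => (List.range P).flatMap (W π) ++ [-x])

/-- **The prefix bound of the main word.** -/
lemma main_good (hK : 0 < K) (W : ℕ → ℕ → List (V d)) {D₁ A : ℝ} (hD₁ : 0 ≤ D₁)
    (hW : ∀ π < K, ∀ j < P, (W π j).sum = sp I K z bt π j ∧ ∀ k, ∃ τ : ℝ, 0 ≤ τ ∧ τ ≤ 1 ∧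
      ‖((W π j).take k).sum - τ • sp I K z bt π j‖ ≤ D₁)
    (hb : ∀ π < K, ∀ t ≤ P, ‖Dv I P K z bt π t‖ ≤ A)
    (hs : ∀ t ≤ P, ‖∑ j ∈ range t, sj I z j‖ ≤ K) (hA : 0 ≤ A) :
    Good (D₁ + (A + 1)) (0 : V d)
      (fullW P K W ((K:ℝ)⁻¹ • ∑ j ∈ range P, sj I z j)) := by
  have hKr : (0:ℝ) < K := by exact_mod_cast hK
  set x : V d := (K:ℝ)⁻¹ • ∑ j ∈ range P, sj I z j with hx
  set R := D₁ + (A + 1) with hR
  set g : ℕ → ℕ → V d := fun π t => Dv I P K z bt π t + (K:ℝ)⁻¹ • ∑ j ∈ range t, sj I z j with hg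
  have hgb : ∀ π < K, ∀ t ≤ P, ‖g π t‖ ≤ A + 1 := by
    intro π hπ t ht
    refine (norm_add_le _ _).trans (add_le_add (hb π hπ t ht) ?_)
    rw [norm_smul, norm_inv, Real.norm_of_nonneg hKr.le, inv_mul_le_iff₀ hKr, mul_one]
    exact hs t ht
  have hstep : ∀ π < K, ∀ j < P, g π (j + 1) = g π j + sp I K z bt π j := by
    intro π _ j hj
    simp only [hg]
    rw [Dv_succ I P K z bt hj, Finset.sum_range_succ, smul_add, ← sj_sp I K z bt hK π j]
    abel
  have hgood : ∀ π < K, ∀ j < P, Good R (g π j) (W π j) := by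
    intro π hπ j hj k
    obtain ⟨τ, h0, h1, h2⟩ := (hW π hπ j hj).2 k
    have e : g π j + ((W π j).take k).sum
        = ((1 - τ) • g π j + τ • g π (j + 1)) + (((W π j).take k).sum - τ • sp I K z bt π j) := by
      rw [hstep π hπ j hj]
      module
    rw [e]
    have h3 : ‖(1 - τ) • g π j + τ • g π (j + 1)‖ ≤ A + 1 := by
      refine (norm_add_le _ _).trans ?_
      rw [norm_smul, norm_smul, Real.norm_of_nonneg (by linarith), Real.norm_of_nonneg h0]
      have h4 := hgb π hπ j hj.le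
      have h5 := hgb π hπ (j + 1) hj
      nlinarith
    have := (norm_add_le _ _).trans (add_le_add h3 h2)
    linarith
  have hstage : ∀ π < K, Good R (Dv I P K z bt π 0) ((List.range P).flatMap (W π) ++ [-x]) ∧
      Dv I P K z bt π 0 + ((List.range P).flatMap (W π) ++ [-x]).sum = Dv I P K z bt (π + 1) 0 := by
    intro π hπ
    have hg0 : g π 0 = Dv I P K z bt π 0 := by simp [hg]
    have hs0 : ‖g π 0‖ ≤ R := by
      have := hgb π hπ 0 (Nat.zero_le _)
      simp only [hR]
      linarith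
    obtain ⟨h1, h2⟩ := good_flatMap (W π) (g π) hs0 P (hgood π hπ)
      (fun j hj => by rw [hstep π hπ j hj, (hW π hπ j hj).1])
    rw [hg0] at h1 h2
    have h3 : g π P + -x = Dv I P K z bt π P := by
      simp only [hg, hx]
      abel
    constructor
    · apply good_append h1
      rw [h2]
      intro k
      cases k with
      | zero =>
        have := hgb π hπ P (le_refl _)
        simp only [List.take_zero, List.sum_nil, add_zero, hR]
        linarith
      | succ k =>
        simp only [List.take_succ_cons, List.take_nil, List.sum_cons, List.sum_nil, add_zero]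
        rw [h3]
        have := hb π hπ P (le_refl _)
        simp only [hR]
        linarith
    · rw [List.sum_append, ← add_assoc, h2, ← Dv_period]
      simp only [List.sum_cons, List.sum_nil, add_zero]
      exact h3
  have hstart : ‖Dv I P K z bt 0 0‖ ≤ R := by
    rw [Dv_zero, norm_zero]
    simp only [hR]
    linarith
  have := (good_flatMap (fun π => (List.range P).flatMap (W π) ++ [-x])
    (fun π => Dv I P K z bt π 0) hstart K (fun π hπ => (hstage π hπ).1)
    (fun π hπ => (hstage π hπ).2.symm)).1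
  simp only [Dv_zero] at this
  exact this

lemma coe_flatMap_range {α : Type*} (F : ℕ → List α) (n : ℕ) :
    (((List.range n).flatMap F : List α) : Multiset α) = ∑ i ∈ range n, ((F i : List α) : Multiset α) := by
  induction n with
  | zero => simp
  | succ n ih =>
    rw [List.range_succ, List.flatMap_append, Finset.sum_range_succ, ← Multiset.coe_add, ih]
    simp

end main

end Vale.Agent.Lib.P262C
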