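import Vale.Agent.Lib.P262C.Few1

open Finset

namespace Vale.Agent.Lib.P262C

open Vale.Agent.Lib.P262

variable {d : ℕ}

lemma map_sum_getD {α β : Type*} [AddCommMonoid β] (d₀ : α) (f : α → β) (L : List α) :
    (L.map f).sum = ∑ i ∈ range L.length, f (L.getD i d₀) := by
  induction L with
  | nil => simp
  | cons a L ih =>
    simp only [List.map_cons, List.sum_cons, List.length_cons]
    rw [Finset.sum_range_succ', ih, add_comm]
    simp

/-- the letters of `I` with multiplicities `y` -/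
noncomputable def Ms (I : Finset (V d)) (y : V d → ℕ) : Multiset (V d) :=
  ∑ γ ∈ I, Multiset.replicate (y γ) γ

lemma Ms_add (I : Finset (V d)) (y y' : V d → ℕ) :
    Ms I (fun γ => y γ + y' γ) = Ms I y + Ms I y' := by
  simp only [Ms, Multiset.replicate_add, Finset.sum_add_distrib]

lemma Ms_sum {ι : Type*} (I : Finset (V d)) (s : Finset ι) (y : ι → V d → ℕ) :
    Ms I (fun γ => ∑ i ∈ s, y i γ) = ∑ i ∈ s, Ms I (y i) := by
  classical
  simp only [Ms, ← Multiset.nsmul_singleton, Finset.sum_smul]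
  rw [Finset.sum_comm]

lemma Ms_congr (I : Finset (V d)) {y y' : V d → ℕ} (h : ∀ γ ∈ I, y γ = y' γ) :
    Ms I y = Ms I y' := by
  apply Finset.sum_congr rfl
  intro γ hγ
  rw [h γ hγ]

lemma Ms_sumv (I : Finset (V d)) (y : V d → ℕ) : (Ms I y).sum = ∑ γ ∈ I, (y γ : ℝ) • γ := by
  classical
  induction I using Finset.induction_on with
  | empty => simp [Ms]
  | insert a s ha ih =>
    simp only [Ms] at ih ⊢
    rw [Finset.sum_insert ha, Finset.sum_insert ha, Multiset.sum_add, ih, Multiset.sum_replicate,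
      Nat.cast_smul_eq_nsmul]

lemma Ms_card (I : Finset (V d)) (y : V d → ℕ) : Multiset.card (Ms I y) = ∑ γ ∈ I, y γ := by
  simp [Ms, Multiset.card_sum]

lemma Ms_mem {I : Finset (V d)} {y : V d → ℕ} {v : V d} (h : v ∈ Ms I y) : v ∈ I := by
  simp only [Ms, Multiset.mem_sum] at h
  obtain ⟨γ, hγ, h2⟩ := h
  rw [Multiset.eq_of_mem_replicate h2]
  exact hγ

lemma Ms_self (l : List (V d)) [DecidableEq (V d)] :
    Ms l.toFinset (fun γ => l.count γ) = (l : Multiset (V d)) := by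
  have h := Vale.Agent.Lib.P262.filter_decomp (fun v : V d => v) l.toFinset l
    (fun a ha => List.mem_toFinset.2 ha)
  rw [h]
  apply Finset.sum_congr rfl
  intro γ _
  rw [List.filter_eq]
  rfl

lemma sj_norm (I : Finset (V d)) (hI : ∀ γ ∈ I, ‖γ‖ ≤ 1) (p : V d → ℝ) (hp0 : ∀ γ, 0 ≤ p γ)
    (hsupp : (I.filter (fun γ => 0 < p γ)).card ≤ d + 1) (hrel : ∑ γ ∈ I, p γ • γ = 0) :
    ‖∑ γ ∈ I, ((⌊p γ⌋₊ : ℕ) : ℝ) • γ‖ ≤ (d:ℝ) + 1 := by
  have e : ∑ γ ∈ I, ((⌊p γ⌋₊ : ℕ) : ℝ) • γ = - ∑ γ ∈ I, (p γ - ((⌊p γ⌋₊ : ℕ) : ℝ)) • γ := by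
    simp only [sub_smul, Finset.sum_sub_distrib, hrel]
    abel
  rw [e, norm_neg]
  calc _ ≤ ∑ γ ∈ I, ‖(p γ - ((⌊p γ⌋₊ : ℕ) : ℝ)) • γ‖ := norm_sum_le _ _
    _ ≤ ∑ γ ∈ I, (if 0 < p γ then (1:ℝ) else 0) := by
        apply Finset.sum_le_sum
        intro γ hγ
        rw [norm_smul]
        have h1 := Nat.floor_le (hp0 γ)
        have h2 := Nat.lt_floor_add_one (p γ)
        have h3 := hI γ hγ
        rw [Real.norm_of_nonneg (by linarith)]
        split_ifs with h
        · nlinarith [norm_nonneg γ]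
        · have h4 : p γ = 0 := le_antisymm (not_lt.1 h) (hp0 γ)
          simp [h4]
    _ = ((I.filter (fun γ => 0 < p γ)).card : ℝ) := by
        rw [Finset.sum_boole]
    _ ≤ (d:ℝ) + 1 := by exact_mod_cast hsupp

/-- **The theorem on few letters**, with its parameters. -/
theorem few_letters (β : ℝ) (hβ : 0 ≤ β)
    (hOB : ∀ r, 1 ≤ r → r ≤ d + 1 → OrderBound r (20 * r * 103 ^ r) (β * Real.sqrt r))
    (l : List (V d)) (hl1 : ∀ v ∈ l, ‖v‖ ≤ 1) (hl0 : l.sum = 0)
    (S : Finset (V d)) (hlS : ∀ v ∈ l, v ∈ S) (Λ J : ℕ) (hS : S.card ≤ Λ)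
    (hJ : Λ * (d + 1) ≤ 2 ^ J) {σ : ℝ} (hσ : SignOracle (V d) (Λ * Λ * 2 ^ J) σ) {RL : ℝ}
    (hRL : OrderBound d (2 * 2 ^ J) RL) :
    ∃ l' : List (V d), l'.Perm l ∧
      ∀ k, ‖(l'.take k).sum‖ ≤ ((5 + 4 * β) * Real.sqrt ((d:ℝ) + 1) + (4 * σ + 1)) + RL := by
  classical
  have hσ0 := hσ.nonneg
  set I := l.toFinset with hI
  have hIc : I.card ≤ Λ :=
    (Finset.card_le_card (fun v hv => hlS v (List.mem_toFinset.1 hv))).trans hS
  have hI1 : ∀ γ ∈ I, ‖γ‖ ≤ 1 := fun γ hγ => hl1 γ (List.mem_toFinset.1 hγ)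
  have hvpos : ∀ γ ∈ I, 0 < (l.count γ : ℝ) := by
    intro γ hγ
    have := List.count_pos_iff.2 (List.mem_toFinset.1 hγ)
    exact_mod_cast this
  have hvsum : ∑ γ ∈ I, (l.count γ : ℝ) • γ = 0 := by
    have := Finset.sum_list_count l
    rw [hl0] at this
    rw [this]
    apply Finset.sum_congr rfl
    intro γ _
    rw [Nat.cast_smul_eq_nsmul]
  obtain ⟨ps, hpslen, hps, hpssum⟩ := exists_peel (fun γ : V d => γ) _ I _ rfl hvpos hvsum
  set P := ps.length with hP
  have hPΛ : P ≤ Λ := hpslen.trans hIc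
  set p : ℕ → V d → ℝ := fun j => ps.getD j 0 with hp
  have hpj : ∀ j, (∀ γ, 0 ≤ p j γ) ∧ (I.filter (fun γ => 0 < p j γ)).card ≤ d + 1 ∧
      ∑ γ ∈ I, p j γ • γ = 0 := by
    intro j
    by_cases hj : j < P
    · have hmem : p j ∈ ps := by
        simp only [hp]
        rw [List.getD_eq_getElem _ _ hj]
        exact List.getElem_mem hj
      obtain ⟨h1, _, h3, h4⟩ := hps _ hmem
      exact ⟨h1, h3, h4⟩
    · have hp0 : p j = 0 := by
        simp only [hp]
        rw [List.getD_eq_default _ _ (by omega)]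
      rw [hp0]
      simp
  set z : ℕ → V d → ℕ := fun j γ => ⌊p j γ⌋₊ with hz
  set K := 2 ^ J with hK
  have hKpos : 0 < K := by positivity
  have hKr : (0:ℝ) < (K:ℝ) := by exact_mod_cast hKpos
  have hPK : P * (d + 1) ≤ K := (Nat.mul_le_mul_right _ hPΛ).trans hJ
  set C := (range P) ×ˢ I with hC
  obtain ⟨bt, hb1, hb2, hb3⟩ := bits_lemma C (fun c => c.2) (fun c hc => hI1 _ (Finset.mem_product.1 hc).2)
    (fun c => z c.1 c.2) (fun c => c.1) P J hσ
    (by
      rw [hC, Finset.card_product, Finset.card_range]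
      exact Nat.mul_le_mul_right _ (Nat.mul_le_mul hPΛ hIc))
  have hDv : ∀ π < K, ∀ t ≤ P, ‖Dv I P K z bt π t‖ ≤ 4 * σ := fun π hπ t ht => hb3 π hπ t ht
  -- the pieces
  have hsupp : ∀ π, ∀ j, j < P →
      (I.filter (fun γ => 1 ≤ uct K z bt π j γ)).card ≤ d + 1 := by
    intro π j hj
    refine le_trans (Finset.card_le_card ?_) (hpj j).2.1
    intro γ hγ
    obtain ⟨h1, h2⟩ := Finset.mem_filter.1 hγ
    refine Finset.mem_filter.2 ⟨h1, ?_⟩
    by_contra hcon
    have hp0 : p j γ = 0 := le_antisymm (not_lt.1 hcon) ((hpj j).1 γ)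
    have hz0 : z j γ = 0 := by
      simp only [hz, hp0]
      simp
    have hc : (j, γ) ∈ C := Finset.mem_product.2 ⟨Finset.mem_range.2 hj, h1⟩
    have hbf : bt (j, γ) π = false := by
      by_contra hne
      have := hb2 _ hc π (by simpa using hne)
      simp only [hz0] at this
      simp at this
    simp only [uct, hz0, hbf] at h2
    simp at h2
  have hpiece : ∀ π j, j < P → ∃ W : List (V d),
      (W : Multiset (V d)) = Ms I (uct K z bt π j) ∧
      W.sum = sp I K z bt π j ∧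
      ∀ k, ∃ τ : ℝ, 0 ≤ τ ∧ τ ≤ 1 ∧
        ‖(W.take k).sum - τ • sp I K z bt π j‖ ≤ (5 + 4 * β) * Real.sqrt ((d:ℝ) + 1) :=
    fun π j hj => piece_word β hβ hOB I hI1 (uct K z bt π j) (hsupp π j hj)
  choose! W hW1 hW2 hW3 using hpiece
  -- the sums of the pieces
  have hsj : ∀ j, ‖sj I z j‖ ≤ (d:ℝ) + 1 := fun j =>
    sj_norm I hI1 (p j) (hpj j).1 (hpj j).2.1 (hpj j).2.2
  have hs : ∀ t ≤ P, ‖∑ j ∈ range t, sj I z j‖ ≤ K := by
    intro t ht
    calc _ ≤ ∑ j ∈ range t, ‖sj I z j‖ := norm_sum_le _ _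
      _ ≤ ∑ j ∈ range t, ((d:ℝ) + 1) := Finset.sum_le_sum (fun j _ => hsj j)
      _ = (t:ℝ) * ((d:ℝ) + 1) := by rw [Finset.sum_const, Finset.card_range, nsmul_eq_mul]
      _ ≤ (P:ℝ) * ((d:ℝ) + 1) := by
          apply mul_le_mul_of_nonneg_right _ (by positivity)
          exact_mod_cast ht
      _ ≤ K := by exact_mod_cast hPK
  set D₁ := (5 + 4 * β) * Real.sqrt ((d:ℝ) + 1) with hD₁
  have hD₁0 : 0 ≤ D₁ := by positivity
  have hgood := main_good I P K z bt hKpos W hD₁0
    (fun π _ j hj => ⟨hW2 π j hj, hW3 π j hj⟩) hDv hs (by positivity)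
  set S₀ := ∑ j ∈ range P, sj I z j with hS₀
  set x : V d := (K:ℝ)⁻¹ • S₀ with hx
  set Full := fullW P K W x with hFull
  -- multiplicities
  set Zs : V d → ℕ := fun γ => ∑ j ∈ range P, z j γ with hZs
  have hfloor : ∀ γ ∈ I, Zs γ ≤ l.count γ := by
    intro γ hγ
    have h1 := floor_sum_le ps γ (fun q hq => (hps q hq).1 γ)
    rw [hpssum γ hγ, map_sum_getD (0 : V d → ℝ)] at h1
    exact_mod_cast h1
  set lo : V d → ℕ := fun γ => l.count γ - Zs γ with hlo
  have hsplit : (l : Multiset (V d)) = Ms I Zs + Ms I lo := by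
    rw [← Ms_add, ← Ms_self l]
    apply Ms_congr
    intro γ hγ
    have := hfloor γ hγ
    simp only [hlo]
    omega
  have hFullcoe : (Full : Multiset (V d)) = Ms I Zs + Multiset.replicate K (-x) := by
    simp only [hFull, fullW]
    rw [coe_flatMap_range]
    have e1 : ∀ π ∈ range K, (((List.range P).flatMap (W π) ++ [-x] : List (V d)) : Multiset (V d))
        = ∑ j ∈ range P, Ms I (uct K z bt π j) + {-x} := by
      intro π _
      rw [← Multiset.coe_add, coe_flatMap_range]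
      congr 1
      apply Finset.sum_congr rfl
      intro j hj
      exact hW1 π j (Finset.mem_range.1 hj)
    rw [Finset.sum_congr rfl e1, Finset.sum_add_distrib]
    congr 1
    · rw [Finset.sum_comm]
      simp only [hZs]
      rw [Ms_sum]
      apply Finset.sum_congr rfl
      intro j hj
      rw [← Ms_sum]
      apply Ms_congr
      intro γ hγ
      have hc : (j, γ) ∈ C := Finset.mem_product.2 ⟨hj, hγ⟩
      have h1 := hb1 _ hc
      simp only [uct, Finset.sum_add_distrib, Finset.sum_const, Finset.card_range, smul_eq_mul]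
      rw [h1]
      exact Nat.div_add_mod (z j γ) K
    · simp [Multiset.nsmul_singleton]
  set F₁ := (Ms I Zs).toList with hF₁
  set L := (Ms I lo).toList with hL
  have hF₁c : (F₁ : Multiset (V d)) = Ms I Zs := Multiset.coe_toList _
  have hLc : (L : Multiset (V d)) = Ms I lo := Multiset.coe_toList _
  have hZs' : ∀ γ, (ps.map (fun q => ⌊q γ⌋₊)).sum = Zs γ := by
    intro γ
    rw [map_sum_getD (0 : V d → ℝ)]
  have hLlen : L.length ≤ P * (d + 1) := by
    have h1 : (L.length : ℝ) = ∑ γ ∈ I, ((ps.map (fun q => q γ)).sum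
        - (((ps.map (fun q => ⌊q γ⌋₊)).sum : ℕ) : ℝ)) := by
      have h2 : L.length = ∑ γ ∈ I, lo γ := by
        rw [hL, Multiset.length_toList, Ms_card]
      rw [h2, Nat.cast_sum]
      apply Finset.sum_congr rfl
      intro γ hγ
      rw [hpssum γ hγ, hZs' γ]
      exact Nat.cast_sub (hfloor γ hγ)
    have h3 := Vale.Agent.Lib.P262.fract_total (d := d) I ps
      (fun q hq => ⟨(hps q hq).1, (hps q hq).2.2.1⟩)
    rw [← h1] at h3
    exact_mod_cast h3
  have hLunit : ∀ v ∈ L, ‖v‖ ≤ 1 := by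
    intro v hv
    have h1 : v ∈ Ms I lo := by
      rw [← hLc]
      simpa using hv
    exact hI1 v (Ms_mem h1)
  have hsumZ : (Ms I Zs).sum = S₀ := by
    rw [Ms_sumv, hS₀]
    simp only [sj, hZs]
    rw [Finset.sum_comm]
    apply Finset.sum_congr rfl
    intro γ _
    push_cast
    rw [Finset.sum_smul]
  have hsumL : L.sum = - S₀ := by
    have h1 := congrArg Multiset.sum hsplit
    rw [Multiset.sum_coe, hl0, Multiset.sum_add, hsumZ, ← hLc, Multiset.sum_coe] at h1
    rw [eq_neg_iff_add_eq_zero, add_comm]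
    exact h1.symm
  have hS₀n : ‖S₀‖ ≤ K := by
    rw [← norm_neg, ← hsumL]
    refine (Vale.Agent.Lib.P262.norm_list_sum_le_length L hLunit).trans ?_
    exact_mod_cast hLlen.trans hPK
  have hxn : ‖x‖ ≤ 1 := by
    rw [hx, norm_smul, norm_inv, Real.norm_of_nonneg hKr.le, inv_mul_le_iff₀ hKr, mul_one]
    exact hS₀n
  obtain ⟨B', hB'p, hB'b⟩ := hRL (L ++ List.replicate K x)
    (by
      rw [List.length_append, List.length_replicate]
      have := hLlen.trans hPK
      omega)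
    (by
      intro v hv
      rcases List.mem_append.1 hv with h | h
      · exact hLunit v h
      · rw [List.eq_of_mem_replicate h]
        exact hxn)
    (by
      rw [List.sum_append, List.sum_replicate, hsumL, ← Nat.cast_smul_eq_nsmul ℝ, hx, smul_smul,
        mul_inv_cancel₀ hKr.ne', one_smul]
      abel)
  have hAb : ∀ k, ‖(Full.take k).sum‖ ≤ D₁ + (4 * σ + 1) := by
    intro k
    have := hgood k
    simpa using this
  have hFp : Full.Perm (F₁ ++ List.replicate K (-x)) := by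
    apply Multiset.coe_eq_coe.1
    rw [hFullcoe, ← Multiset.coe_add, hF₁c]
    rfl
  obtain ⟨Z, hZ, hZb⟩ := split_order x F₁ L K Full B' hFp hB'p hAb hB'b
  refine ⟨Z, hZ.trans ?_, hZb⟩
  apply Multiset.coe_eq_coe.1
  rw [← Multiset.coe_add, hF₁c, hLc, hsplit]

end Vale.Agent.Lib.P262C
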