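import Vale.Agent.Lib.P262C.NetOrder
import Vale.Agent.Lib.P262B.Final

open Finset Real

namespace Vale.Agent.Lib.P262C

open Vale.Agent.Lib.P262 Vale.Agent.Lib.P262B

/-- the universal constant of the bound of Banaszczyk -/
noncomputable def C₀ : ℝ := 4 / r0

lemma C₀_pos : 0 < C₀ := by
  have := r0_pos
  unfold C₀
  positivity

lemma log_two_le_one : Real.log 2 ≤ 1 := by
  have := Real.log_two_lt_d9
  linarith

lemma rad_le {d N : ℕ} (hd : 1 ≤ d) (hN : 1 ≤ N) :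
    Rad (d + 1) N ≤ 4 * (√(d:ℝ) + √(log (N:ℝ))) := by
  have hd1 : (1:ℝ) ≤ d := by exact_mod_cast hd
  have hN1 : (1:ℝ) ≤ N := by exact_mod_cast hN
  have hlogN : 0 ≤ log (N:ℝ) := Real.log_nonneg hN1
  unfold Rad
  have h2 : √(((d + 1 : ℕ):ℝ) + log (2 * (N:ℝ) + 2)) ≤ 2 * (√(d:ℝ) + √(log (N:ℝ))) := by
    apply Real.sqrt_le_iff.2
    refine ⟨by positivity, ?_⟩
    have e : (2 * (√(d:ℝ) + √(log (N:ℝ)))) ^ 2
        = 4 * (d:ℝ) + 4 * log (N:ℝ) + 8 * (√(d:ℝ) * √(log (N:ℝ))) := by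
      rw [mul_pow, add_pow_two, Real.sq_sqrt (by positivity), Real.sq_sqrt hlogN]
      ring
    rw [e]
    have h3 : log (2 * (N:ℝ) + 2) ≤ 2 + log (N:ℝ) := by
      have h4 : 2 * (N:ℝ) + 2 ≤ 4 * N := by linarith
      have h5 : log (2 * (N:ℝ) + 2) ≤ log (4 * N) :=
        Real.log_le_log (by positivity) h4
      have h6 : log (4 * (N:ℝ)) = log 4 + log N := Real.log_mul (by norm_num) (by positivity)
      have h7 : log 4 ≤ 2 := by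
        have := Real.log_le_sub_one_of_pos (x := 4 / exp 1) (by positivity)
        rw [Real.log_div (by norm_num) (exp_pos _).ne', Real.log_exp] at this
        have h8 : 4 / exp 1 ≤ 2 := by
          rw [div_le_iff₀ (exp_pos _)]
          have := Real.add_one_le_exp (1:ℝ)
          linarith
        linarith
      linarith
    have h9 : 0 ≤ √(d:ℝ) * √(log (N:ℝ)) := by positivity
    push_cast
    linarith
  linarith

/-- the signing theorem as an oracle -/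
lemma signOracle {d N : ℕ} (hd : 1 ≤ d) (hN : 1 ≤ N) :
    SignOracle (V d) N (C₀ * (√(d:ℝ) + √(log (N:ℝ)))) := by
  intro l hl1 hl2
  obtain ⟨T, h1, h2⟩ := signed_bound N l hl1 hl2
  refine ⟨T, h1, fun k => ?_⟩
  have h3 := h2 k
  have hr := r0_pos
  have e : (fun q : V d × Bool => sg q.2 q.1) = sv id := by
    ext1 q
    rfl
  rw [e]
  refine h3.trans ?_
  have e2 : C₀ * (√(d:ℝ) + √(log (N:ℝ))) = 4 * (√(d:ℝ) + √(log (N:ℝ))) / r0 := by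
    unfold C₀
    ring
  rw [e2]
  exact div_le_div_of_nonneg_right (rad_le hd hN) hr.le

lemma orderBoundC {d N : ℕ} (hd : 1 ≤ d) (hN : 1 ≤ N) :
    OrderBound d N (C₀ * (√(d:ℝ) + √(log (N:ℝ)))) :=
  banaszczyk d N hd hN

lemma exists_J (X : ℕ) (hX : 1 ≤ X) : ∃ J : ℕ, X ≤ 2 ^ J ∧ 2 ^ J ≤ 2 * X := by
  refine ⟨Nat.log 2 X + 1, ?_, ?_⟩
  · exact (Nat.lt_pow_succ_log_self (by norm_num) X).le
  · rw [pow_succ, mul_comm]
    exact Nat.mul_le_mul_left 2 (Nat.pow_log_le_self 2 (by omega))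

/-- dimension parameter -/
noncomputable def Yd (d : ℕ) : ℝ := ((d:ℝ) + 1) * log (log ((d:ℝ) + 3) + 2)

section numerics

variable {d : ℕ} (hd : 1 ≤ d)
include hd

lemma L0_ge : 1 ≤ log ((d:ℝ) + 3) := by
  have hd' : (1:ℝ) ≤ d := by exact_mod_cast hd
  rw [Real.le_log_iff_exp_le (by linarith)]
  have := Real.exp_one_lt_d9
  linarith

lemma LL_ge : 1 ≤ log (log ((d:ℝ) + 3) + 2) := by
  have h1 := L0_ge hd
  rw [Real.le_log_iff_exp_le (by linarith)]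
  have := Real.exp_one_lt_d9
  linarith

lemma Yd_ge : (d:ℝ) + 1 ≤ Yd d := by
  have h1 := LL_ge hd
  unfold Yd
  have : (0:ℝ) ≤ (d:ℝ) + 1 := by positivity
  nlinarith

lemma log_Lambda (Λ : ℕ) (h1 : 1 ≤ Λ)
    (hΛ : (Λ:ℝ) ≤ (1 + 2 * √(log ((d:ℝ) + 3))) ^ d + 1) : log (Λ:ℝ) ≤ 3 * Yd d := by
  have hL := L0_ge hd
  have hLL := LL_ge hd
  set L₀ := log ((d:ℝ) + 3) with hL₀
  have hsq : √L₀ ^ 2 = L₀ := Real.sq_sqrt (by linarith)
  have hs0 : 0 ≤ √L₀ := Real.sqrt_nonneg _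
  have hbase : (1:ℝ) ≤ (1 + 2 * √L₀) ^ d := one_le_pow₀ (by linarith)
  have hΛ1 : (1:ℝ) ≤ Λ := by exact_mod_cast h1
  have h2 : log (Λ:ℝ) ≤ log (2 * (1 + 2 * √L₀) ^ d) := Real.log_le_log (by linarith) (by linarith)
  rw [Real.log_mul (by norm_num) (by positivity), Real.log_pow] at h2
  have h3 : log (1 + 2 * √L₀) ≤ 2 * log (L₀ + 2) := by
    have h4 : 1 + 2 * √L₀ ≤ (L₀ + 2) ^ 2 := by nlinarith [sq_nonneg (√L₀ - 1)]
    have h5 := Real.log_le_log (by linarith) h4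
    rw [Real.log_pow] at h5
    exact_mod_cast h5
  have h6 := log_two_le_one
  have hd0 : (0:ℝ) ≤ d := by positivity
  have h7 : (d:ℝ) * log (1 + 2 * √L₀) ≤ (d:ℝ) * (2 * log (L₀ + 2)) :=
    mul_le_mul_of_nonneg_left h3 hd0
  unfold Yd
  rw [← hL₀]
  nlinarith

lemma sqrt_log_le {x c : ℝ} (hc : 0 ≤ c) (h : x ≤ c ^ 2 * Yd d) : √x ≤ c * √(Yd d) := by
  have hY : 0 ≤ Yd d := by
    have := Yd_ge hd
    have h0 : (0:ℝ) ≤ d := by positivity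
    linarith
  calc √x ≤ √(c ^ 2 * Yd d) := Real.sqrt_le_sqrt h
    _ = c * √(Yd d) := by rw [Real.sqrt_mul (by positivity), Real.sqrt_sq hc]

end numerics

lemma hOB_C₀ (r : ℕ) (hr1 : 1 ≤ r) :
    OrderBound r (20 * r * 103 ^ r) ((5 * C₀) * Real.sqrt r) := by
  have hC := C₀_pos
  have hN : 1 ≤ 20 * r * 103 ^ r := by
    have : 0 < 20 * r * 103 ^ r := by positivity
    omega
  apply (orderBoundC hr1 hN).mono (le_refl _)
  have hlog := log_step r hr1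
  have hr' : (0:ℝ) ≤ r := Nat.cast_nonneg r
  have h2 : Real.sqrt (Real.log ((20 * r * 103 ^ r : ℕ) : ℝ)) ≤ 4 * Real.sqrt r := by
    apply Real.sqrt_le_iff.2
    constructor
    · positivity
    · rw [mul_pow, Real.sq_sqrt hr']
      nlinarith
  nlinarith [Real.sqrt_nonneg (r:ℝ)]

lemma logK_bound {d : ℕ} (hd : 1 ≤ d) (Λ J : ℕ) (hΛ1 : 1 ≤ Λ) (hlogΛ : log (Λ:ℝ) ≤ 3 * Yd d)
    (hJ2 : 2 ^ J ≤ 2 * (Λ * (d + 1))) : log ((2 ^ J : ℕ) : ℝ) ≤ 4 * Yd d := by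
  have hY := Yd_ge hd
  have hd0 : (0:ℝ) ≤ d := by positivity
  have hΛr1 : (1:ℝ) ≤ Λ := by exact_mod_cast hΛ1
  have hKpos : 0 < 2 ^ J := by positivity
  have hKr1 : (0:ℝ) < ((2 ^ J : ℕ) : ℝ) := by exact_mod_cast hKpos
  have hlog2 := log_two_le_one
  have h1 : ((2 ^ J : ℕ) : ℝ) ≤ 2 * ((Λ:ℝ) * ((d:ℝ) + 1)) := by exact_mod_cast hJ2
  have h2 := Real.log_le_log hKr1 h1
  rw [Real.log_mul (by norm_num) (by positivity), Real.log_mul (by positivity) (by positivity)] at h2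
  have h3 : log ((d:ℝ) + 1) ≤ d := by
    have := Real.log_le_sub_one_of_pos (show (0:ℝ) < (d:ℝ) + 1 by positivity)
    linarith
  linarith

/-- the theorem on few letters, with the numerical values of the parameters -/
lemma few_clean {d : ℕ} (hd : 1 ≤ d) (Λ J : ℕ) (hΛ1 : 1 ≤ Λ) (hlogΛ : log (Λ:ℝ) ≤ 3 * Yd d)
    (hlogK : log ((2 ^ J : ℕ) : ℝ) ≤ 4 * Yd d) (hJ1 : Λ * (d + 1) ≤ 2 ^ J)
    (l₁ : List (V d)) (h1 : ∀ v ∈ l₁, ‖v‖ ≤ 1) (h2 : l₁.sum = 0) (S : Finset (V d))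
    (h3 : ∀ v ∈ l₁, v ∈ S) (h4 : S.card ≤ Λ) :
    ∃ l' : List (V d), l'.Perm l₁ ∧ ∀ k, ‖(l'.take k).sum‖ ≤ (6 + 44 * C₀) * √(Yd d) := by
  have hC := C₀_pos
  have hY := Yd_ge hd
  have hd0 : (0:ℝ) ≤ d := by positivity
  have hΛr1 : (1:ℝ) ≤ Λ := by exact_mod_cast hΛ1
  have hKpos : 0 < 2 ^ J := by positivity
  have hKr1 : (0:ℝ) < ((2 ^ J : ℕ) : ℝ) := by exact_mod_cast hKpos
  have hlog2 := log_two_le_one
  have hs1 : 1 ≤ √(Yd d) := by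
    rw [Real.one_le_sqrt]
    linarith
  have hsd : √(d:ℝ) ≤ √(Yd d) := Real.sqrt_le_sqrt (by linarith)
  have hsd1 : √((d:ℝ) + 1) ≤ √(Yd d) := Real.sqrt_le_sqrt hY
  have hN₂ : 1 ≤ Λ * Λ * 2 ^ J := Nat.mul_pos (Nat.mul_pos (by omega) (by omega)) hKpos
  have hN₂' : 1 ≤ 2 * 2 ^ J := by omega
  have hlogN₂ : √(log ((Λ * Λ * 2 ^ J : ℕ) : ℝ)) ≤ 4 * √(Yd d) := by
    apply sqrt_log_le hd (by norm_num)
    rw [Nat.cast_mul, Nat.cast_mul, Real.log_mul (by positivity) hKr1.ne',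
      Real.log_mul (by positivity) (by positivity)]
    linarith
  have hlogN₂' : √(log ((2 * 2 ^ J : ℕ) : ℝ)) ≤ 3 * √(Yd d) := by
    apply sqrt_log_le hd (by norm_num)
    rw [Nat.cast_mul, Real.log_mul (by norm_num) hKr1.ne']
    push_cast
    push_cast at hlogK
    linarith
  obtain ⟨l', hp, hb⟩ := few_letters (5 * C₀) (by positivity) (fun r hr _ => hOB_C₀ r hr) l₁ h1 h2 S
    h3 Λ J h4 hJ1 (signOracle hd hN₂) (orderBoundC hd hN₂')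
  refine ⟨l', hp, fun k => (hb k).trans ?_⟩
  have h5 := mul_le_mul_of_nonneg_left (add_le_add hsd hlogN₂) hC.le
  have h6 := mul_le_mul_of_nonneg_left (add_le_add hsd hlogN₂') hC.le
  have h7 : (5 + 4 * (5 * C₀)) * √((d:ℝ) + 1) ≤ (5 + 4 * (5 * C₀)) * √(Yd d) :=
    mul_le_mul_of_nonneg_left hsd1 (by positivity)
  nlinarith

lemma logN1_bound {d : ℕ} (hd : 1 ≤ d) (Kl : ℕ) (hKl : 1 ≤ Kl)
    (h : log ((2 * Kl : ℕ) : ℝ) ≤ 8 * Yd d) :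
    log (((d + 2) ^ (10 * d + 2) + Kl : ℕ) : ℝ) ≤ (5 * √(log ((d:ℝ) + 3))) ^ 2 * Yd d := by
  have hL := L0_ge hd
  have hY := Yd_ge hd
  have hd0 : (0:ℝ) ≤ d := by positivity
  generalize hN₀ : (d + 2) ^ (10 * d + 2) = N₀
  have hN₀pos : 1 ≤ N₀ := by
    rw [← hN₀]
    exact Nat.one_le_pow _ _ (by omega)
  have h4 : log (N₀ : ℝ) ≤ (10 * (d:ℝ) + 2) * log ((d:ℝ) + 3) := by
    rw [← hN₀]
    rw [Nat.cast_pow, Real.log_pow]
    have h5 : log (((d + 2 : ℕ) : ℝ)) ≤ log ((d:ℝ) + 3) :=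
      Real.log_le_log (by positivity) (by push_cast; linarith)
    have h6 : (0:ℝ) ≤ 10 * (d:ℝ) + 2 := by positivity
    have e : ((10 * d + 2 : ℕ) : ℝ) = 10 * (d:ℝ) + 2 := by push_cast; ring
    rw [e]
    exact mul_le_mul_of_nonneg_left h5 h6
  have h1 : N₀ + Kl ≤ N₀ * (2 * Kl) := by
    have h2 : Kl * 1 ≤ Kl * N₀ := Nat.mul_le_mul_left _ hN₀pos
    have h3 : N₀ * 1 ≤ N₀ * Kl := Nat.mul_le_mul_left _ hKl
    nlinarith
  have h2 : ((N₀ + Kl : ℕ) : ℝ) ≤ (N₀ : ℝ) * ((2 * Kl : ℕ) : ℝ) := by exact_mod_cast h1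
  have hN₁r : (0:ℝ) < ((N₀ + Kl : ℕ) : ℝ) := by
    have : 0 < N₀ + Kl := by omega
    exact_mod_cast this
  have h3 := Real.log_le_log hN₁r h2
  have hN₀r : (0:ℝ) < N₀ := by exact_mod_cast hN₀pos
  have hN₃r : (0:ℝ) < ((2 * Kl : ℕ) : ℝ) := by
    have : 0 < 2 * Kl := by omega
    exact_mod_cast this
  rw [Real.log_mul hN₀r.ne' hN₃r.ne'] at h3
  have h7 : (5 * √(log ((d:ℝ) + 3))) ^ 2 = 25 * log ((d:ℝ) + 3) := by
    rw [mul_pow, Real.sq_sqrt (by linarith)]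
    norm_num
  rw [h7]
  nlinarith

/-- the bound for lists of the size of the reduction -/
theorem bounded_loglog {d : ℕ} (hd : 1 ≤ d) :
    OrderBound d ((d + 2) ^ (10 * d + 2)) ((8 + 96 * C₀) * √(Yd d)) := by
  intro l hlen hl1 hl0
  have hC := C₀_pos
  have hd1 : (1:ℝ) ≤ d := by exact_mod_cast hd
  have hL := L0_ge hd
  have hY := Yd_ge hd
  have hY0 : 0 ≤ Yd d := by linarith
  have hs1 : 1 ≤ √(Yd d) := by
    rw [Real.one_le_sqrt]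
    linarith
  have hsd : √(d:ℝ) ≤ √(Yd d) := Real.sqrt_le_sqrt (by linarith)
  have hsL : 0 < √(log ((d:ℝ) + 3)) := Real.sqrt_pos.2 (by linarith)
  have hsL1 : 1 ≤ √(log ((d:ℝ) + 3)) := by
    rw [Real.one_le_sqrt]
    exact hL
  obtain ⟨ρ, hρdef⟩ : ∃ ρ : ℝ, ρ = 1 / √(log ((d:ℝ) + 3)) := ⟨_, rfl⟩
  have hρ : 0 < ρ := by
    rw [hρdef]
    positivity
  have hρ1 : ρ ≤ 1 := by
    rw [hρdef, div_le_one hsL]
    exact hsL1
  have hρL : ρ * √(log ((d:ℝ) + 3)) = 1 := by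
    rw [hρdef]
    field_simp
  have h2ρ : 2 / ρ = 2 * √(log ((d:ℝ) + 3)) := by
    rw [hρdef]
    field_simp
  obtain ⟨Cn, hCn, hcard⟩ := exists_net hρ l hl1
  obtain ⟨Λ, hΛdef⟩ : ∃ Λ : ℕ, Λ = Cn.card + 1 := ⟨_, rfl⟩
  have hΛ1 : 1 ≤ Λ := by omega
  have hΛr : (Λ:ℝ) ≤ (1 + 2 * √(log ((d:ℝ) + 3))) ^ d + 1 := by
    rw [h2ρ] at hcard
    rw [hΛdef]
    push_cast
    linarith
  have hlogΛ : log (Λ:ℝ) ≤ 3 * Yd d := log_Lambda hd Λ hΛ1 hΛr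
  obtain ⟨J, hJ1, hJ2⟩ := exists_J (Λ * (d + 1)) (Nat.mul_pos (by omega) (by omega))
  have hlogK := logK_bound hd Λ J hΛ1 hlogΛ hJ2
  have hKpos : 0 < 2 ^ J := by positivity
  have hKr1 : (0:ℝ) < ((2 ^ J : ℕ) : ℝ) := by exact_mod_cast hKpos
  have hΛr1 : (1:ℝ) ≤ Λ := by exact_mod_cast hΛ1
  have hlog2 := log_two_le_one
  have hKl : 1 ≤ 2 ^ J * Λ := Nat.mul_pos hKpos (by omega)
  have hN₃ : 1 ≤ 2 * 2 ^ J * Λ := Nat.mul_pos (by omega) (by omega)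
  have hlog3 : log ((2 * (2 ^ J * Λ) : ℕ) : ℝ) ≤ 8 * Yd d := by
    rw [Nat.cast_mul, Nat.cast_mul, Real.log_mul (by norm_num) (by positivity),
      Real.log_mul hKr1.ne' (by positivity)]
    push_cast
    push_cast at hlogK
    linarith
  have hlogN₃ : √(log ((2 * 2 ^ J * Λ : ℕ) : ℝ)) ≤ 3 * √(Yd d) := by
    apply sqrt_log_le hd (by norm_num)
    rw [mul_assoc]
    linarith
  have hlogN₁ := logN1_bound hd (2 ^ J * Λ) hKl hlog3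
  have hlogN₁' := sqrt_log_le hd (by positivity) hlogN₁
  obtain ⟨N₁, hN₁def⟩ : ∃ N₁ : ℕ, N₁ = (d + 2) ^ (10 * d + 2) + 2 ^ J * Λ := ⟨_, rfl⟩
  rw [← hN₁def] at hlogN₁'
  have hN₁pos : 1 ≤ N₁ := by omega
  have hρσ : ρ * (C₀ * (√(d:ℝ) + √(log (N₁ : ℝ)))) ≤ 6 * (C₀ * √(Yd d)) := by
    have e : ρ * (C₀ * (√(d:ℝ) + √(log (N₁ : ℝ))))
        = C₀ * (ρ * √(d:ℝ) + ρ * √(log (N₁ : ℝ))) := by ring
    have h1 : ρ * √(d:ℝ) ≤ √(Yd d) := by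
      have h0 : 0 ≤ √(d:ℝ) := Real.sqrt_nonneg _
      nlinarith
    have h2 : ρ * √(log (N₁ : ℝ)) ≤ 5 * √(Yd d) := by
      have h3 := mul_le_mul_of_nonneg_left hlogN₁' hρ.le
      have e2 : ρ * (5 * √(log ((d:ℝ) + 3)) * √(Yd d))
          = 5 * √(Yd d) * (ρ * √(log ((d:ℝ) + 3))) := by ring
      rw [e2, hρL, mul_one] at h3
      exact h3
    rw [e]
    have := mul_le_mul_of_nonneg_left (add_le_add h1 h2) hC.le
    linarith
  obtain ⟨l', hp, hb⟩ := net_order hρ l hl1 hl0 Cn hCn Λ J (by omega) hJ1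
    (fun l₁ h1 h2 S h3 h4 => few_clean hd Λ J hΛ1 hlogΛ hlogK hJ1 l₁ h1 h2 S h3 h4) (N := N₁)
    (by omega) (signOracle hd hN₁pos) (orderBoundC hd hN₃)
  refine ⟨l', hp, fun k => (hb k).trans ?_⟩
  have h5 := mul_le_mul_of_nonneg_left (add_le_add hsd hlogN₃) hC.le
  have hCs : 0 ≤ C₀ * √(Yd d) := by positivity
  linarith

/-- **The Steinitz constant is `O(√(d log log d))`.** -/
theorem steinitz_loglog :
    ∃ C : ℝ, 0 < C ∧ ∀ d : ℕ, 1 ≤ d → ∀ l : List (EuclideanSpace ℝ (Fin d)),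
      (∀ v ∈ l, ‖v‖ ≤ 1) → l.sum = 0 →
      ∃ l' : List (EuclideanSpace ℝ (Fin d)), l'.Perm l ∧
        ∀ k : ℕ, ‖(l'.take k).sum‖ ≤
          C * √(((d:ℝ) + 1) * log (log ((d:ℝ) + 3) + 2)) := by
  have hC := C₀_pos
  refine ⟨30 + 176 * C₀, by positivity, ?_⟩
  intro d hd l hl1 hl0
  obtain ⟨l', hp, hb⟩ := reduction hd (5 * C₀) (by positivity) _ (fun r hr _ => hOB_C₀ r hr)
    (bounded_loglog hd) l hl1 hl0
  refine ⟨l', hp, fun k => (hb k).trans ?_⟩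
  have hY := Yd_ge hd
  have hd0 : (0:ℝ) ≤ d := by positivity
  have hs1 : 1 ≤ √(Yd d) := by
    rw [Real.one_le_sqrt]
    linarith
  have hsd1 : √((d:ℝ) + 1) ≤ √(Yd d) := Real.sqrt_le_sqrt hY
  have h1 : 4 * (5 + 4 * (5 * C₀)) * √((d:ℝ) + 1) ≤ 4 * (5 + 4 * (5 * C₀)) * √(Yd d) :=
    mul_le_mul_of_nonneg_left hsd1 (by positivity)
  have e : √(((d:ℝ) + 1) * log (log ((d:ℝ) + 3) + 2)) = √(Yd d) := rfl
  rw [e]
  nlinarith

end Vale.Agent.Lib.P262C
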