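import Vale.Agent.Lib.P262.Basic

open Finset

namespace Vale.Agent.Lib.P262C

variable {E : Type*} [NormedAddCommGroup E]

/-- value of a tagged entry -/
def tv (x : E) : Option E → E
  | none => x
  | some v => v

lemma merge_tagged (x : E) {RA RB : ℝ} : ∀ (n : ℕ) (A B : List (Option E)) (u v : E),
    A.length + B.length = n → A.countP Option.isNone = B.countP Option.isNone →
    (∀ k, ‖u + ((A.take k).map (tv (-x))).sum‖ ≤ RA) →
    (∀ k, ‖v + ((B.take k).map (tv x)).sum‖ ≤ RB) →
    ∃ Z : List E, Z.Perm (A.filterMap id ++ B.filterMap id) ∧
      ∀ k, ‖u + v + (Z.take k).sum‖ ≤ RA + RB := by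
  intro n
  induction n using Nat.strong_induction_on with
  | _ n ih =>
    intro A B u v hn hc hA hB
    have hu : ‖u‖ ≤ RA := by simpa using hA 0
    have hv : ‖v‖ ≤ RB := by simpa using hB 0
    have huv : ‖u + v‖ ≤ RA + RB := (norm_add_le _ _).trans (add_le_add hu hv)
    -- emitting an entry of `A`
    have stepA : ∀ (w : E) (A₁ : List (Option E)), A = some w :: A₁ →
        ∃ Z : List E, Z.Perm (A.filterMap id ++ B.filterMap id) ∧
          ∀ k, ‖u + v + (Z.take k).sum‖ ≤ RA + RB := by
      intro w A₁ hA₁
      subst hA₁
      simp only [List.length_cons] at hn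
      obtain ⟨Z, hZ, hb⟩ := ih (A₁.length + B.length) (by omega) A₁ B (u + w) v rfl
        (by simpa using hc)
        (fun k => by
          have := hA (k + 1)
          simpa [add_assoc, tv] using this) hB
      refine ⟨w :: Z, ?_, ?_⟩
      · simpa using hZ.cons w
      · intro k
        cases k with
        | zero => simpa using huv
        | succ k =>
          have := hb k
          simp only [List.take_succ_cons, List.sum_cons]
          convert this using 2
          abel
    have stepB : ∀ (w : E) (B₁ : List (Option E)), B = some w :: B₁ →
        ∃ Z : List E, Z.Perm (A.filterMap id ++ B.filterMap id) ∧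
          ∀ k, ‖u + v + (Z.take k).sum‖ ≤ RA + RB := by
      intro w B₁ hB₁
      subst hB₁
      simp only [List.length_cons] at hn
      obtain ⟨Z, hZ, hb⟩ := ih (A.length + B₁.length) (by omega) A B₁ u (v + w) rfl
        (by simpa using hc) hA
        (fun k => by
          have := hB (k + 1)
          simpa [add_assoc, tv] using this)
      refine ⟨w :: Z, ?_, ?_⟩
      · have h1 := hZ.cons w
        refine h1.trans ?_
        simpa using (List.perm_middle (a := w) (l₁ := A.filterMap id) (l₂ := B₁.filterMap id)).symm
      · intro k
        cases k with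
        | zero => simpa using huv
        | succ k =>
          have := hb k
          simp only [List.take_succ_cons, List.sum_cons]
          convert this using 2
          abel
    rcases A with _ | ⟨a, A₁⟩
    · rcases B with _ | ⟨b, B₁⟩
      · exact ⟨[], by simp, fun k => by simpa using huv⟩
      · cases b with
        | none => simp at hc
        | some w => exact stepB w B₁ rfl
    · cases a with
      | some w => exact stepA w A₁ rfl
      | none =>
        rcases B with _ | ⟨b, B₁⟩
        · simp at hc
        · cases b with
          | some w => exact stepB w B₁ rfl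
          | none =>
            simp only [List.length_cons] at hn
            obtain ⟨Z, hZ, hb⟩ := ih (A₁.length + B₁.length) (by omega) A₁ B₁ (u + -x) (v + x) rfl
              (by simpa using hc)
              (fun k => by
                have := hA (k + 1)
                simpa [add_assoc, tv] using this)
              (fun k => by
                have := hB (k + 1)
                simpa [add_assoc, tv] using this)
            refine ⟨Z, by simpa using hZ, ?_⟩
            intro k
            have := hb k
            convert this using 2
            abel

/-- **Splitting principle.** Two parts of a family that can be ordered with opposite correction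
terms can be merged. -/
theorem split_order (x : E) (F₁ F₂ : List E) (M : ℕ) {RA RB : ℝ} (A' B' : List E)
    (hA : A'.Perm (F₁ ++ List.replicate M (-x))) (hB : B'.Perm (F₂ ++ List.replicate M x))
    (hAb : ∀ k, ‖(A'.take k).sum‖ ≤ RA) (hBb : ∀ k, ‖(B'.take k).sum‖ ≤ RB) :
    ∃ Z : List E, Z.Perm (F₁ ++ F₂) ∧ ∀ k, ‖(Z.take k).sum‖ ≤ RA + RB := by
  set A₀ : List (Option E) := F₁.map some ++ List.replicate M none with hA₀
  set B₀ : List (Option E) := F₂.map some ++ List.replicate M none with hB₀
  have hmap : ∀ (y : E) (F : List E), (F.map some ++ List.replicate M none).map (tv y)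
      = F ++ List.replicate M y := by
    intro y F
    simp only [List.map_append, List.map_map, List.map_replicate]
    congr 1
    · have : tv y ∘ some = id := by
        ext1 w
        rfl
      rw [this, List.map_id]
  obtain ⟨A, hAp, hAm⟩ := Vale.Agent.Lib.P262.exists_perm_map (tv (-x)) A₀ A' (by rw [hA₀, hmap]; exact hA)
  obtain ⟨B, hBp, hBm⟩ := Vale.Agent.Lib.P262.exists_perm_map (tv x) B₀ B' (by rw [hB₀, hmap]; exact hB)
  have hfm : ∀ F : List E, (F.map some ++ List.replicate M none).filterMap id = F := by
    intro F
    rw [List.filterMap_append, List.filterMap_map]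
    have h1 : (List.replicate M (none : Option E)).filterMap id = [] := by
      induction M with
      | zero => simp
      | succ n ih => simp
    rw [h1, List.append_nil]
    have : (id ∘ some : E → Option E) = some := rfl
    rw [this, List.filterMap_some]
  have hcount : ∀ F : List E, (F.map some ++ List.replicate M none).countP Option.isNone = M := by
    intro F
    rw [List.countP_append]
    have h1 : (F.map some).countP Option.isNone = 0 := by
      rw [List.countP_eq_zero]
      intro a ha
      obtain ⟨w, _, rfl⟩ := List.mem_map.1 ha
      simp
    have h2 : (List.replicate M (none : Option E)).countP Option.isNone = M := by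
      rw [List.countP_replicate]
      simp
    omega
  obtain ⟨Z, hZ, hb⟩ := merge_tagged x (RA := RA) (RB := RB) _ A B 0 0 rfl
    (by rw [hAp.countP_eq, hBp.countP_eq, hA₀, hB₀, hcount, hcount])
    (fun k => by
      rw [zero_add, List.map_take, hAm]
      exact hAb k)
    (fun k => by
      rw [zero_add, List.map_take, hBm]
      exact hBb k)
  refine ⟨Z, ?_, fun k => by simpa using hb k⟩
  refine hZ.trans ?_
  have h1 := hAp.filterMap id
  have h2 := hBp.filterMap id
  rw [hA₀, hfm] at h1
  rw [hB₀, hfm] at h2
  exact h1.append h2

/-- all prefixes stay small, starting from `g` -/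
def Good (R : ℝ) (g : E) (L : List E) : Prop := ∀ k, ‖g + (L.take k).sum‖ ≤ R

lemma Good.start {R : ℝ} {g : E} {L : List E} (h : Good R g L) : ‖g‖ ≤ R := by
  simpa using h 0

lemma good_append {R : ℝ} {g : E} {L₁ L₂ : List E} (h₁ : Good R g L₁)
    (h₂ : Good R (g + L₁.sum) L₂) : Good R g (L₁ ++ L₂) := by
  intro k
  by_cases hk : k ≤ L₁.length
  · rw [List.take_append_of_le_length hk]
    exact h₁ k
  · rw [List.take_append, List.take_of_length_le (by omega), List.sum_append, ← add_assoc]
    exact h₂ _

lemma good_flatMap {R : ℝ} (F : ℕ → List E) (g : ℕ → E) (h0 : ‖g 0‖ ≤ R) : ∀ n : ℕ,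
    (∀ i < n, Good R (g i) (F i)) → (∀ i < n, g (i + 1) = g i + (F i).sum) →
    Good R (g 0) ((List.range n).flatMap F) ∧ g 0 + ((List.range n).flatMap F).sum = g n := by
  intro n
  induction n with
  | zero =>
    intro _ _
    refine ⟨?_, by simp⟩
    intro k
    simpa using h0
  | succ n ih =>
    intro h1 h2
    obtain ⟨h3, h4⟩ := ih (fun i hi => h1 i (by omega)) (fun i hi => h2 i (by omega))
    have e : (List.range (n + 1)).flatMap F = (List.range n).flatMap F ++ F n := by
      rw [List.range_succ, List.flatMap_append]
      simp
    rw [e]
    refine ⟨good_append h3 ?_, ?_⟩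
    · rw [h4]
      exact h1 n (by omega)
    · rw [List.sum_append, ← add_assoc, h4, h2 n (by omega)]

end Vale.Agent.Lib.P262C
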