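import Vale.Agent.Lib.P262C.Round
import Vale.Agent.Lib.P262C.Merge
import Vale.Agent.Lib.P262.Word

open Finset

namespace Vale.Agent.Lib.P262C

variable {E : Type*} [NormedAddCommGroup E] [NormedSpace ℝ E]

/-- a word repeated `K` times -/
def repW {κ : Type*} (W : List κ) (K : ℕ) : List κ := (List.replicate K W).flatten

lemma repW_succ {κ : Type*} (W : List κ) (K : ℕ) : repW W (K + 1) = repW W K ++ W := by
  simp [repW, List.replicate_succ']

lemma repW_zero {κ : Type*} (W : List κ) : repW W 0 = [] := by
  simp [repW]

lemma repW_length {κ : Type*} (W : List κ) (K : ℕ) : (repW W K).length = K * W.length := by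
  induction K with
  | zero => simp [repW_zero]
  | succ K ih =>
    rw [repW_succ, List.length_append, ih]
    ring

lemma repW_count {κ : Type*} [DecidableEq κ] (W : List κ) (K : ℕ) (c : κ) :
    (repW W K).count c = K * W.count c := by
  induction K with
  | zero => simp [repW_zero]
  | succ K ih =>
    rw [repW_succ, List.count_append, ih]
    ring

lemma repW_take {κ : Type*} [DecidableEq κ] (W : List κ) : ∀ K t, 0 < K → t ≤ (repW W K).length →
    ∃ π t', π < K ∧ t' ≤ W.length ∧
      ∀ c, ((repW W K).take t).count c = π * W.count c + (W.take t').count c := by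
  intro K
  induction K with
  | zero => intro t h; omega
  | succ K ih =>
    intro t _ ht
    rw [repW_succ] at ht ⊢
    by_cases h : t ≤ (repW W K).length
    · rw [List.take_append_of_le_length h]
      rcases Nat.eq_zero_or_pos K with rfl | hK
      · have ht0 : t = 0 := by simpa [repW_zero] using h
        subst ht0
        exact ⟨0, 0, by omega, by omega, fun c => by simp⟩
      · obtain ⟨π, t', h1, h2, h3⟩ := ih t hK h
        exact ⟨π, t', by omega, h2, h3⟩
    · refine ⟨K, t - (repW W K).length, by omega, ?_, ?_⟩
      · rw [List.length_append] at ht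
        omega
      · intro c
        rw [List.take_append, List.take_of_length_le (by omega), List.count_append, repW_count]

omit [NormedSpace ℝ E] in
lemma list_sum_count {κ : Type*} [DecidableEq κ] (C : Finset κ) (f : κ → E) (L : List κ)
    (h : ∀ w ∈ L, w ∈ C) : (L.map f).sum = ∑ c ∈ C, L.count c • f c := by
  rw [Finset.sum_list_map_count]
  apply Finset.sum_subset
  · intro w hw
    exact h w (List.mem_toFinset.1 hw)
  · intro c _ hc
    have : L.count c = 0 := List.count_eq_zero.2 (fun hm => hc (List.mem_toFinset.2 hm))
    simp [this]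

omit [NormedSpace ℝ E] in
lemma map_add_sum (l : List E) (v : E) : (l.map (fun u => v + u)).sum = l.length • v + l.sum := by
  induction l with
  | nil => simp
  | cons a l ih =>
    simp only [List.map_cons, List.sum_cons, ih, List.length_cons, succ_nsmul]
    abel

omit [NormedSpace ℝ E] in
lemma take_map_add_sum (l : List E) (v : E) (n : ℕ) (hn : n ≤ l.length) :
    ((l.map (fun u => v + u)).take n).sum = n • v + (l.take n).sum := by
  rw [← List.map_take, map_add_sum, List.length_take, min_eq_left hn]

/-- **Lifting**: a zero-sum word on colours, with small prefixes, lifts to an order of all the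
elements of the colours, when the elements of each colour are close to the letter of the colour. -/
theorem lift_word {κ : Type*} [DecidableEq κ] (C : Finset κ) (c' : κ → E) (W₁ : List κ)
    (hW : ∀ w ∈ W₁, w ∈ C) {R₁ : ℝ} (hR₁ : ∀ t, ‖((W₁.take t).map c').sum‖ ≤ R₁)
    (h0 : (W₁.map c').sum = 0) (J : ℕ) (q : κ → List E) {δ σ : ℝ} {N : ℕ} (hδ : 0 < δ)
    (hσ : SignOracle E N σ) (hlen : ∀ c ∈ C, (q c).length = 2 ^ J * W₁.count c)
    (hsum : ∀ c ∈ C, (q c).sum = 0) (hnorm : ∀ c ∈ C, ∀ v ∈ q c, ‖v‖ ≤ δ)
    (hN : ∑ c ∈ C, (q c).length ≤ N) {B : ℝ}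
    (hB : ∀ t ≤ W₁.length, ‖Dev C q (fun c => 2 ^ J * (W₁.take t).count c)‖ ≤ B) :
    ∃ Z : List E, (Z : Multiset E) = ∑ c ∈ C, (((q c).map (fun u => c' c + u) : List E) : Multiset E) ∧
      ∀ k, ‖(Z.take k).sum‖ ≤ R₁ + (B / 2 ^ J + 2 * (2 * δ * σ)) := by
  have hR₁0 : 0 ≤ R₁ := (norm_nonneg _).trans (hR₁ 0)
  obtain ⟨q', hq', hb⟩ := periodic C W₁.length hδ hσ J (fun c => W₁.count c)
    (fun t c => (W₁.take t).count c)
    q B
    (fun t t' htt c _ => (List.take_sublist_take_left htt).count_le c)
    (fun t c _ => (List.take_sublist t W₁).count_le c) hlen hsum hnorm hN hB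
  set K := 2 ^ J with hK
  have hKpos : 0 < K := by positivity
  set Wf := repW W₁ K with hWf
  set x : ℕ → κ → ℕ := fun t c => (Wf.take t).count c with hx
  set Qc : κ → List E := fun c => (q' c).map (fun u => c' c + u) with hQc
  have hq'len : ∀ c ∈ C, (q' c).length = K * W₁.count c := fun c hc => by
    rw [(hq' c hc).length_eq, hlen c hc]
  have hstop : ∀ c ∈ C, x Wf.length c = (Qc c).length := by
    intro c hc
    simp only [hx, hQc, List.take_length, List.length_map]
    rw [hWf, repW_count, hq'len c hc]
  obtain ⟨Z, f, h1, h2, _⟩ := Vale.Agent.Lib.P262.fill_word C Wf.length x Qc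
    (fun c _ => by simp [hx])
    (fun t _ c _ => (List.take_sublist_take_left (Nat.le_succ t)).count_le c)
    (fun t ht => by
      have e : ∀ c, x (t + 1) c = x t c + (if Wf[t] = c then 1 else 0) := by
        intro c
        simp only [hx]
        rw [List.take_succ_eq_append_getElem ht, List.count_append, List.count_singleton]
        simp
      simp only [e, Finset.sum_add_distrib]
      apply Nat.add_le_add_left
      rw [Finset.sum_ite_eq]
      split_ifs <;> omega)
    (fun c hc => (hstop c hc).le) Wf.length (le_refl _)
  refine ⟨Z, ?_, ?_⟩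
  · rw [h1]
    apply Finset.sum_congr rfl
    intro c hc
    rw [hstop c hc, List.take_length]
    exact Multiset.coe_eq_coe.2 ((hq' c hc).map _)
  · have hb1 : ∀ k ≤ Z.length, ‖(Z.take k).sum‖ ≤ R₁ + (B / 2 ^ J + 2 * (2 * δ * σ)) := by
      intro k hk
      obtain ⟨h3, h4⟩ := h2 k hk
      rw [h4]
      obtain ⟨π, t', hπ, ht', hcount⟩ := repW_take W₁ K (f k) hKpos h3
      have hDev := hb π hπ t' ht'
      have e : ∑ c ∈ C, ((Qc c).take (x (f k) c)).sum
          = ((W₁.take t').map c').sum + Dev C q' (fun c => π * W₁.count c + (W₁.take t').count c) := by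
        have e1 : ∀ c ∈ C, ((Qc c).take (x (f k) c)).sum
            = π • (W₁.count c • c' c) + (W₁.take t').count c • c' c
              + ((q' c).take (π * W₁.count c + (W₁.take t').count c)).sum := by
          intro c hc
          simp only [hx, hQc]
          rw [hcount c, take_map_add_sum]
          · rw [add_nsmul, mul_nsmul']
          · rw [hq'len c hc]
            have h5 := (List.take_sublist t' W₁).count_le c
            have h6 : (π + 1) * W₁.count c ≤ K * W₁.count c := Nat.mul_le_mul_right _ hπ
            nlinarith
        rw [Finset.sum_congr rfl e1, Finset.sum_add_distrib, Finset.sum_add_distrib,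
          ← Finset.smul_sum, ← list_sum_count C c' W₁ hW, h0, smul_zero, zero_add,
          ← list_sum_count C c' (W₁.take t') (fun w hw => hW w (List.mem_of_mem_take hw))]
        rfl
      rw [e]
      exact (norm_add_le _ _).trans (add_le_add (hR₁ t') hDev)
    intro k
    by_cases hk : k ≤ Z.length
    · exact hb1 k hk
    · have e : Z.take k = Z.take Z.length := by
        rw [List.take_of_length_le (by omega), List.take_length]
      rw [e]
      exact hb1 _ (le_refl _)

end Vale.Agent.Lib.P262C
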