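import Vale.Agent.Lib.P262C.Colored

open Finset

namespace Vale.Agent.Lib.P262C

open Vale.Agent.Lib.P262

variable {d : ℕ}

/-- **Order from a net**: the main step. -/
theorem net_order {ρ : ℝ} (hρ : 0 < ρ) (l : List (V d)) (hl1 : ∀ v ∈ l, ‖v‖ ≤ 1) (hl0 : l.sum = 0)
    (Cn : Finset (V d)) (hCn : ∀ v ∈ l, ∃ γ ∈ Cn, ‖v - γ‖ ≤ ρ) (Λ J : ℕ) (hΛ : Cn.card + 1 ≤ Λ)
    (hJ : Λ * (d + 1) ≤ 2 ^ J) {R₁ σ RL : ℝ}
    (hFew : ∀ l₁ : List (V d), (∀ v ∈ l₁, ‖v‖ ≤ 1) → l₁.sum = 0 → ∀ S : Finset (V d),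
      (∀ v ∈ l₁, v ∈ S) → S.card ≤ Λ → ∃ l' : List (V d), l'.Perm l₁ ∧ ∀ k, ‖(l'.take k).sum‖ ≤ R₁)
    {N : ℕ} (hN : l.length + 2 ^ J * Λ ≤ N) (hσ : SignOracle (V d) N σ)
    (hRL : OrderBound d (2 * 2 ^ J * Λ) RL) :
    ∃ l' : List (V d), l'.Perm l ∧
      ∀ k, ‖(l'.take k).sum‖ ≤ (R₁ + (2 * ρ + 2 * (2 * (2 * ρ) * σ))) + RL := by
  classical
  set K := 2 ^ J with hK
  have hKpos : 0 < K := by positivity
  have hKr : (0:ℝ) < K := by exact_mod_cast hKpos
  have hΛpos : 0 < Λ := by omega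
  have hΛr : (0:ℝ) < Λ := by exact_mod_cast hΛpos
  choose! col hcol1 hcol2 using hCn
  set X : V d → List (V d) := fun γ => l.filter (fun v => col v = γ) with hX
  have hXdec : (l : Multiset (V d)) = ∑ γ ∈ Cn, ((X γ : List (V d)) : Multiset (V d)) :=
    filter_decomp col Cn l hcol1
  set A : V d → ℕ := fun γ => (X γ).length / K with hA
  set Y : V d → List (V d) := fun γ => (X γ).take (K * A γ) with hY
  set Lf : V d → List (V d) := fun γ => (X γ).drop (K * A γ) with hLf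
  have hYlen : ∀ γ, (Y γ).length = K * A γ := by
    intro γ
    simp only [hY, List.length_take]
    exact min_eq_left (Nat.mul_div_le _ _)
  have hLflen : ∀ γ, (Lf γ).length ≤ K := by
    intro γ
    simp only [hLf, List.length_drop, hA]
    have h1 := Nat.div_add_mod (X γ).length K
    have h2 := Nat.mod_lt (X γ).length hKpos
    omega
  have hXmem : ∀ γ, ∀ v ∈ X γ, v ∈ l ∧ col v = γ := by
    intro γ v hv
    have := List.mem_filter.1 hv
    exact ⟨this.1, by simpa using this.2⟩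
  have hXclose : ∀ γ, ∀ v ∈ Y γ, ∀ u ∈ Y γ, ‖v - u‖ ≤ 2 * ρ := by
    intro γ v hv u hu
    obtain ⟨h1, h2⟩ := hXmem γ v (List.mem_of_mem_take hv)
    obtain ⟨h3, h4⟩ := hXmem γ u (List.mem_of_mem_take hu)
    have h5 := hcol2 v h1
    have h6 := hcol2 u h3
    rw [h2] at h5
    rw [h4] at h6
    have e : v - u = (v - γ) - (u - γ) := by abel
    rw [e]
    refine (norm_sub_le _ _).trans ?_
    linarith
  have hdata := fun γ => colour_data (Y γ)
    (fun v hv => hl1 v (hXmem γ v (List.mem_of_mem_take hv)).1) (by positivity : 0 < 2 * ρ)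
    (hXclose γ)
  choose cb Q hcb hQp hcbs hres hpref using hdata
  set e : V d := ∑ γ ∈ Cn, (A γ : ℝ) • cb γ with he
  set x : V d := (Λ:ℝ)⁻¹ • e with hx
  have hxΛ : (Λ:ℝ) • x = e := by
    rw [hx, smul_smul, mul_inv_cancel₀ hΛr.ne', one_smul]
  have hKe : (K:ℝ) • e = ∑ γ ∈ Cn, (Y γ).sum := by
    rw [he, Finset.smul_sum]
    apply Finset.sum_congr rfl
    intro γ _
    rw [← hcbs γ, hYlen γ, smul_smul]
    push_cast
    rfl
  set F₁ := (∑ γ ∈ Cn, ((Y γ : List (V d)) : Multiset (V d))).toList with hF₁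
  set F₂ := (∑ γ ∈ Cn, ((Lf γ : List (V d)) : Multiset (V d))).toList with hF₂
  have hF₁c : (F₁ : Multiset (V d)) = ∑ γ ∈ Cn, ((Y γ : List (V d)) : Multiset (V d)) :=
    Multiset.coe_toList _
  have hF₂c : (F₂ : Multiset (V d)) = ∑ γ ∈ Cn, ((Lf γ : List (V d)) : Multiset (V d)) :=
    Multiset.coe_toList _
  have hsplit : (l : Multiset (V d)) = (F₁ : Multiset (V d)) + F₂ := by
    rw [hF₁c, hF₂c, ← Finset.sum_add_distrib, hXdec]
    apply Finset.sum_congr rfl
    intro γ _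
    rw [Multiset.coe_add]
    simp only [hY, hLf, List.take_append_drop]
  have hF₁sum : F₁.sum = (K:ℝ) • e := by
    have := congrArg Multiset.sum hF₁c
    rw [msum, Multiset.sum_coe] at this
    rw [this, hKe]
  have hF₂sum : F₂.sum = - ((K:ℝ) • e) := by
    have := congrArg Multiset.sum hsplit
    rw [Multiset.sum_coe, hl0, Multiset.sum_add, Multiset.sum_coe, Multiset.sum_coe, hF₁sum] at this
    rw [eq_neg_iff_add_eq_zero, add_comm]
    exact this.symm
  have hF₂len : F₂.length ≤ Cn.card * K := by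
    rw [hF₂, Multiset.length_toList, Multiset.card_sum]
    simp only [Multiset.coe_card]
    exact Finset.sum_le_card_nsmul _ _ _ (fun γ _ => hLflen γ)
  have hF₂unit : ∀ v ∈ F₂, ‖v‖ ≤ 1 := by
    intro v hv
    have h1 : v ∈ (F₂ : Multiset (V d)) := by simpa using hv
    rw [hF₂c, Multiset.mem_sum] at h1
    obtain ⟨γ, _, h2⟩ := h1
    have h3 : v ∈ Lf γ := by simpa using h2
    exact hl1 v (hXmem γ v (List.mem_of_mem_drop h3)).1
  have hen : ‖e‖ ≤ Cn.card := by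
    have h1 : ‖F₂.sum‖ ≤ F₂.length := norm_list_sum_le_length F₂ hF₂unit
    rw [hF₂sum, norm_neg, norm_smul, Real.norm_of_nonneg hKr.le] at h1
    have h2 : (F₂.length : ℝ) ≤ (Cn.card : ℝ) * K := by exact_mod_cast hF₂len
    have h3 : (K:ℝ) * ‖e‖ ≤ (K:ℝ) * Cn.card := by linarith
    exact le_of_mul_le_mul_left h3 hKr
  have hxn : ‖x‖ ≤ 1 := by
    rw [hx, norm_smul, norm_inv, Real.norm_of_nonneg hΛr.le, inv_mul_le_iff₀ hΛr, mul_one]
    refine hen.trans ?_
    have : Cn.card ≤ Λ := by omega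
    exact_mod_cast this
  have hQlen : ∀ γ, (Q γ).length = K * A γ := fun γ => by rw [(hQp γ).length_eq, hYlen γ]
  have hcard : ∑ γ ∈ Cn, (Q γ).length ≤ l.length := by
    have h1 := congrArg Multiset.card hXdec
    rw [Multiset.card_sum] at h1
    simp only [Multiset.coe_card] at h1
    rw [h1]
    apply Finset.sum_le_sum
    intro γ _
    rw [hQlen γ, ← hYlen γ]
    simp only [hY, List.length_take]
    omega
  obtain ⟨Z, hZ1, hZ2⟩ := colored_lift hρ Cn cb A Q Λ J hΛ hJ (fun γ _ => hcb γ)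
    (fun γ _ => hQlen γ)
    (fun γ _ => by rw [(hQp γ).sum_eq, (hQp γ).length_eq, hcbs γ])
    (fun γ _ v hv => hres γ v ((hQp γ).subset hv))
    (fun γ _ k => hpref γ k) hxΛ hxn hFew (N := N) (by rw [← hK]; omega) hσ
  have hZp : Z.Perm (F₁ ++ List.replicate (K * Λ) (-x)) := by
    apply Multiset.coe_eq_coe.1
    rw [hZ1, ← Multiset.coe_add, hF₁c]
    congr 1
    apply Finset.sum_congr rfl
    intro γ _
    exact Multiset.coe_eq_coe.2 (hQp γ)
  obtain ⟨B', hB'p, hB'b⟩ := hRL (F₂ ++ List.replicate (K * Λ) x)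
    (by
      rw [List.length_append, List.length_replicate]
      have h1 : Cn.card * K ≤ Λ * K := Nat.mul_le_mul_right _ (by omega)
      have h2 : Λ * K = K * Λ := by ring
      have h3 : 2 * K * Λ = K * Λ + K * Λ := by ring
      omega)
    (by
      intro v hv
      rcases List.mem_append.1 hv with h | h
      · exact hF₂unit v h
      · rw [List.eq_of_mem_replicate h]
        exact hxn)
    (by
      rw [List.sum_append, List.sum_replicate, hF₂sum, ← Nat.cast_smul_eq_nsmul ℝ]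
      have : ((K * Λ : ℕ) : ℝ) • x = (K:ℝ) • e := by
        calc ((K * Λ : ℕ) : ℝ) • x = (K:ℝ) • ((Λ:ℝ) • x) := by
              rw [Nat.cast_mul, mul_smul]
          _ = (K:ℝ) • e := by rw [hxΛ]
      rw [this]
      abel)
  obtain ⟨Z', hZ', hb⟩ := split_order x F₁ F₂ (K * Λ) Z B' hZp hB'p hZ2 hB'b
  refine ⟨Z', hZ'.trans ?_, hb⟩
  apply Multiset.coe_eq_coe.1
  rw [← Multiset.coe_add, hsplit]

end Vale.Agent.Lib.P262C
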