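import Mathlib

open Finset

namespace Vale.Agent.Lib.P262C

variable {E : Type*} [NormedAddCommGroup E] [NormedSpace ℝ E]

/-- a vector with a sign -/
def sg (b : Bool) (v : E) : E := if b then v else -v

/-- every list of at most `N` vectors of the unit ball can be signed with prefix norms `≤ σ` -/
def SignOracle (E : Type*) [NormedAddCommGroup E] (N : ℕ) (σ : ℝ) : Prop :=
  ∀ l : List E, l.length ≤ N → (∀ v ∈ l, ‖v‖ ≤ 1) →
    ∃ T : List (E × Bool), T.map Prod.fst = l ∧
      ∀ k, ‖((T.take k).map (fun q => sg q.2 q.1)).sum‖ ≤ σ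

omit [NormedSpace ℝ E] in
lemma SignOracle.nonneg {N : ℕ} {σ : ℝ} (h : SignOracle E N σ) : 0 ≤ σ := by
  obtain ⟨T, h1, h2⟩ := h [] (by simp) (by simp)
  have := h2 0
  simpa using this

omit [NormedSpace ℝ E] in
lemma signs_of_T {β : Type*} [DecidableEq β] (y : β → E) :
    ∀ (Z : List β), Z.Nodup → ∀ T : List (E × Bool), T.map Prod.fst = Z.map y →
      ∃ s : β → Bool, ∀ k, ((T.take k).map (fun q => sg q.2 q.1)).sum
        = ((Z.take k).map (fun z => sg (s z) (y z))).sum := by
  intro Z
  induction Z with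
  | nil =>
    intro _ T hT
    have : T = [] := by simpa using hT
    subst this
    exact ⟨fun _ => true, fun k => by simp⟩
  | cons z Z ih =>
    intro hnd T hT
    cases T with
    | nil => simp at hT
    | cons t T =>
      simp only [List.map_cons, List.cons.injEq] at hT
      obtain ⟨h1, h2⟩ := hT
      obtain ⟨hz, hnd'⟩ := List.nodup_cons.1 hnd
      obtain ⟨s, hs⟩ := ih hnd' T h2
      refine ⟨Function.update s z t.2, fun k => ?_⟩
      cases k with
      | zero => simp
      | succ k =>
        simp only [List.take_succ_cons, List.map_cons, List.sum_cons]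
        rw [hs k]
        have e1 : sg (Function.update s z t.2 z) (y z) = sg t.2 t.1 := by
          simp [h1]
        rw [e1]
        congr 2
        apply List.map_congr_left
        intro w hw
        have hne : w ≠ z := fun h => hz (h ▸ List.mem_of_mem_take hw)
        simp [Function.update_of_ne hne]

lemma take_filter_of_sorted {β : Type*} (r : β → ℕ) (t : ℕ) :
    ∀ Z : List β, Z.Pairwise (fun a b => r a ≤ r b) →
      ∃ k, Z.take k = Z.filter (fun z => r z < t) := by
  intro Z
  induction Z with
  | nil => intro _; exact ⟨0, by simp⟩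
  | cons a Z ih =>
    intro h
    obtain ⟨h1, h2⟩ := List.pairwise_cons.1 h
    by_cases hlt : r a < t
    · obtain ⟨k, hk⟩ := ih h2
      refine ⟨k + 1, ?_⟩
      simp [hk, hlt]
    · refine ⟨0, ?_⟩
      have : ∀ z ∈ a :: Z, ¬ r z < t := by
        intro z hz
        rcases List.mem_cons.1 hz with rfl | hz
        · exact hlt
        · have := h1 z hz
          omega
      rw [List.take_zero]
      symm
      rw [List.filter_eq_nil_iff]
      simpa using this

/-- signs for a finite set of items with a time stamp: all threshold sums are small -/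
lemma sign_threshold {β : Type*} [DecidableEq β] (S : Finset β) (r : β → ℕ) (y : β → E)
    {δ σ : ℝ} (hδ : 0 < δ) {N : ℕ} (hσ : SignOracle E N σ) (hN : S.card ≤ N)
    (hy : ∀ z ∈ S, ‖y z‖ ≤ δ) :
    ∃ s : β → Bool, ∀ t, ‖∑ z ∈ S.filter (fun z => r z < t), sg (s z) (y z)‖ ≤ δ * σ := by
  classical
  let rel : β → β → Prop := fun a b => r a ≤ r b
  have : Std.Total rel := ⟨fun a b => Nat.le_total _ _⟩
  have : IsTrans β rel := ⟨fun a b c (h1 : r a ≤ r b) (h2 : r b ≤ r c) => h1.trans h2⟩
  set Z := S.toList.insertionSort rel with hZ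
  have hperm : Z.Perm S.toList := List.perm_insertionSort _ _
  have hnd : Z.Nodup := hperm.nodup_iff.2 S.nodup_toList
  have hsort : Z.Pairwise rel := List.pairwise_insertionSort _ _
  have hmem : ∀ z, z ∈ Z ↔ z ∈ S := fun z => by
    rw [hperm.mem_iff]
    simp
  set y' : β → E := fun z => δ⁻¹ • y z with hy'
  obtain ⟨T, hT1, hT2⟩ := hσ (Z.map y') (by
      rw [List.length_map, hperm.length_eq]
      simpa using hN)
    (by
      intro v hv
      obtain ⟨z, hz, rfl⟩ := List.mem_map.1 hv
      rw [hy', norm_smul, norm_inv, Real.norm_of_nonneg hδ.le, inv_mul_le_iff₀ hδ, mul_one]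
      exact hy z ((hmem z).1 hz))
  obtain ⟨s, hs⟩ := signs_of_T y' Z hnd T hT1
  refine ⟨s, fun t => ?_⟩
  obtain ⟨k, hk⟩ := take_filter_of_sorted r t Z hsort
  have h1 := hT2 k
  rw [hs k, hk] at h1
  have hf : S.filter (fun z => r z < t) = (Z.filter (fun z => r z < t)).toFinset := by
    ext z
    simp [hmem]
  rw [hf, List.sum_toFinset _ (hnd.filter _)]
  have e : (List.map (fun z => sg (s z) (y z)) (Z.filter (fun z => r z < t))).sum
      = δ • (List.map (fun z => sg (s z) (y' z)) (Z.filter (fun z => r z < t))).sum := by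
    rw [List.smul_sum, List.map_map]
    congr 1
    apply List.map_congr_left
    intro z _
    have h2 : y z = δ • y' z := by
      rw [hy', smul_smul, mul_inv_cancel₀ hδ.ne', one_smul]
    simp only [Function.comp, sg]
    rw [h2]
    split_ifs <;> simp
  rw [e, norm_smul, Real.norm_of_nonneg hδ.le]
  exact mul_le_mul_of_nonneg_left h1 hδ.le

/-- the first elements of the pairs, after swapping according to the signs -/
def plusL : (ℕ → Bool) → List E → List E
  | s, x :: y :: t => (if s 0 then x else y) :: plusL (fun i => s (i + 1)) t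
  | _, _ => []

/-- the second elements of the pairs, after swapping according to the signs -/
def minusL : (ℕ → Bool) → List E → List E
  | s, x :: y :: t => (if s 0 then y else x) :: minusL (fun i => s (i + 1)) t
  | _, _ => []

/-- the signed differences of the pairs -/
def diffL : (ℕ → Bool) → List E → List E
  | s, x :: y :: t => sg (s 0) (x - y) :: diffL (fun i => s (i + 1)) t
  | _, _ => []

omit [NormedAddCommGroup E] [NormedSpace ℝ E] in
lemma even_cases {α : Type*} {m : ℕ} {l : List α} (h : l.length = 2 * (m + 1)) :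
    ∃ x y t, l = x :: y :: t ∧ t.length = 2 * m := by
  match l, h with
  | x :: y :: t, h =>
    refine ⟨x, y, t, rfl, ?_⟩
    simp only [List.length_cons] at h
    omega

omit [NormedSpace ℝ E] in
lemma plus_minus_perm : ∀ (m : ℕ) (l : List E) (s : ℕ → Bool), l.length = 2 * m →
    (plusL s l ++ minusL s l).Perm l := by
  intro m
  induction m with
  | zero =>
    intro l s h
    have : l = [] := by simpa using h
    subst this
    simp [plusL, minusL]
  | succ m ih =>
    intro l s h
    obtain ⟨x, y, t, rfl, ht⟩ := even_cases h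
    have h1 := ih t (fun i => s (i + 1)) ht
    simp only [plusL, minusL, List.cons_append]
    by_cases hs : s 0
    · simp only [hs, if_true]
      exact (List.perm_middle.trans (h1.cons y)).cons x
    · simp only [hs, if_false]
      refine (List.Perm.cons _ List.perm_middle).trans ?_
      refine List.Perm.trans (List.Perm.swap _ _ _) ?_
      exact (h1.cons y).cons x

omit [NormedSpace ℝ E] in
lemma plus_length : ∀ (m : ℕ) (l : List E) (s : ℕ → Bool), l.length = 2 * m →
    (plusL s l).length = m := by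
  intro m
  induction m with
  | zero =>
    intro l s h
    have : l = [] := by simpa using h
    subst this
    simp [plusL]
  | succ m ih =>
    intro l s h
    obtain ⟨x, y, t, rfl, ht⟩ := even_cases h
    simp [plusL, ih t _ ht]

lemma plus_take_sum : ∀ (m : ℕ) (l : List E) (s : ℕ → Bool), l.length = 2 * m → ∀ k,
    (2:ℝ) • ((plusL s l).take k).sum = (l.take (2 * k)).sum + ((diffL s l).take k).sum := by
  intro m
  induction m with
  | zero =>
    intro l s h k
    have : l = [] := by simpa using h
    subst this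
    simp [plusL, diffL]
  | succ m ih =>
    intro l s h k
    obtain ⟨x, y, t, rfl, ht⟩ := even_cases h
    cases k with
    | zero => simp
    | succ k =>
      have e : 2 * (k + 1) = 2 * k + 1 + 1 := by ring
      simp only [plusL, diffL, e, List.take_succ_cons, List.sum_cons]
      rw [smul_add, ih t _ ht k]
      by_cases hs : s 0
      · simp only [hs, if_true, sg]
        rw [two_smul]
        abel
      · simp only [hs, if_false, sg, Bool.false_eq_true]
        rw [two_smul]
        abel

lemma minus_take_sum : ∀ (m : ℕ) (l : List E) (s : ℕ → Bool), l.length = 2 * m → ∀ k,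
    (2:ℝ) • ((minusL s l).take k).sum = (l.take (2 * k)).sum - ((diffL s l).take k).sum := by
  intro m
  induction m with
  | zero =>
    intro l s h k
    have : l = [] := by simpa using h
    subst this
    simp [minusL, diffL]
  | succ m ih =>
    intro l s h k
    obtain ⟨x, y, t, rfl, ht⟩ := even_cases h
    cases k with
    | zero => simp
    | succ k =>
      have e : 2 * (k + 1) = 2 * k + 1 + 1 := by ring
      simp only [minusL, diffL, e, List.take_succ_cons, List.sum_cons]
      rw [smul_add, ih t _ ht k]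
      by_cases hs : s 0
      · simp only [hs, if_true, sg]
        rw [two_smul]
        abel
      · simp only [hs, if_false, sg, Bool.false_eq_true]
        rw [two_smul]
        abel

omit [NormedSpace ℝ E] in
lemma diff_take_sum : ∀ (m : ℕ) (l : List E) (s : ℕ → Bool), l.length = 2 * m → ∀ k, k ≤ m →
    ((diffL s l).take k).sum
      = ∑ i ∈ range k, sg (s i) (l.getD (2 * i) 0 - l.getD (2 * i + 1) 0) := by
  intro m
  induction m with
  | zero =>
    intro l s h k hk
    have : k = 0 := by omega
    subst this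
    simp
  | succ m ih =>
    intro l s h k hk
    obtain ⟨x, y, t, rfl, ht⟩ := even_cases h
    cases k with
    | zero => simp
    | succ k =>
      rw [Finset.sum_range_succ']
      simp only [diffL, List.take_succ_cons, List.sum_cons]
      rw [ih t _ ht k (by omega), add_comm]
      simp only [mul_zero, zero_add, List.getD_cons_zero, List.getD_cons_succ]
      congr 1

omit [NormedSpace ℝ E] in
lemma getD_norm {l : List E} {δ : ℝ} (hδ : 0 ≤ δ) (h : ∀ v ∈ l, ‖v‖ ≤ δ) (i : ℕ) :
    ‖l.getD i 0‖ ≤ δ := by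
  by_cases hi : i < l.length
  · rw [List.getD_eq_getElem _ _ hi]
    exact h _ (List.getElem_mem hi)
  · rw [List.getD_eq_default _ _ (by omega)]
    simpa using hδ

/-- the sum over the colours of the prefix sums of the queues -/
noncomputable def Dev {κ : Type*} (C : Finset κ) (q : κ → List E) (n : κ → ℕ) : E :=
  ∑ c ∈ C, ((q c).take (n c)).sum

/-- **One doubling round**. -/
lemma round_step {κ : Type*} [DecidableEq κ] (C : Finset κ) (q : κ → List E) (m : κ → ℕ)
    (X : Finset (κ → ℕ)) {δ σ A : ℝ} {N : ℕ} (hδ : 0 < δ) (hσ : SignOracle E N σ)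
    (hlen : ∀ c ∈ C, (q c).length = 2 * m c) (hsum : ∀ c ∈ C, (q c).sum = 0)
    (hnorm : ∀ c ∈ C, ∀ v ∈ q c, ‖v‖ ≤ δ) (hN : ∑ c ∈ C, m c ≤ N)
    (hcomp : ∀ x ∈ X, ∀ x' ∈ X, (∀ c ∈ C, x c ≤ x' c) ∨ (∀ c ∈ C, x' c ≤ x c))
    (hle : ∀ x ∈ X, ∀ c ∈ C, x c ≤ m c)
    (hA : ∀ x ∈ X, ‖Dev C q (fun c => 2 * x c)‖ ≤ A) :
    ∃ q' : κ → List E, (∀ c ∈ C, (q' c).Perm (q c)) ∧
      (∀ x ∈ X, ‖Dev C q' x‖ ≤ (A + 2 * δ * σ) / 2) ∧
      (∀ x ∈ X, ‖Dev C q' (fun c => m c + x c)‖ ≤ A / 2 + 2 * δ * σ) := by
  classical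
  set X' : Finset (κ → ℕ) := insert m X with hX'
  have hcomp' : ∀ x ∈ X', ∀ x' ∈ X', (∀ c ∈ C, x c ≤ x' c) ∨ (∀ c ∈ C, x' c ≤ x c) := by
    intro x hx x' hx'
    rcases Finset.mem_insert.1 hx with h | h
    · rcases Finset.mem_insert.1 hx' with h' | h'
      · left
        intro c _
        rw [h, h']
      · right
        intro c hc
        rw [h]
        exact hle x' h' c hc
    · rcases Finset.mem_insert.1 hx' with h' | h'
      · left
        intro c hc
        rw [h']
        exact hle x h c hc
      · exact hcomp x h x' h'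
  have hle' : ∀ x ∈ X', ∀ c ∈ C, x c ≤ m c := by
    intro x hx
    rcases Finset.mem_insert.1 hx with h | h
    · intro c _
      rw [h]
    · exact hle x h
  set S : Finset (Σ _ : κ, ℕ) := C.sigma (fun c => range (m c)) with hS
  set r : (Σ _ : κ, ℕ) → ℕ := fun z => (X'.filter (fun x' => x' z.1 ≤ z.2)).card with hr
  set rk : (κ → ℕ) → ℕ := fun x => (X'.filter (fun x' => ∀ c ∈ C, x' c ≤ x c)).card with hrk
  set y : (Σ _ : κ, ℕ) → E := fun z => (q z.1).getD (2 * z.2) 0 - (q z.1).getD (2 * z.2 + 1) 0 with hy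
  have hSc : S.card ≤ N := by
    rw [hS, Finset.card_sigma]
    simpa using hN
  have hyb : ∀ z ∈ S, ‖y z‖ ≤ 2 * δ := by
    intro z hz
    have hz1 : z.1 ∈ C := (Finset.mem_sigma.1 hz).1
    have h1 := getD_norm hδ.le (hnorm z.1 hz1) (2 * z.2)
    have h2 := getD_norm hδ.le (hnorm z.1 hz1) (2 * z.2 + 1)
    simp only [hy]
    refine (norm_sub_le _ _).trans ?_
    linarith
  obtain ⟨s, hs⟩ := sign_threshold S r y (by positivity : 0 < 2 * δ) hσ hSc hyb
  set sc : κ → ℕ → Bool := fun c i => s ⟨c, i⟩ with hsc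
  set Qx : (κ → ℕ) → E := fun x => ∑ c ∈ C, ((diffL (sc c) (q c)).take (x c)).sum with hQx
  have hiff : ∀ x ∈ X', ∀ c ∈ C, ∀ i, i < m c → (r ⟨c, i⟩ < rk x ↔ i < x c) := by
    intro x hx c hc i _
    constructor
    · intro hlt
      by_contra hnot
      have hxi : x c ≤ i := not_lt.1 hnot
      have : rk x ≤ r ⟨c, i⟩ := by
        apply Finset.card_le_card
        intro x' hx'
        obtain ⟨h1, h2⟩ := Finset.mem_filter.1 hx'
        exact Finset.mem_filter.2 ⟨h1, (h2 c hc).trans hxi⟩
      omega
    · intro hlt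
      apply Finset.card_lt_card
      refine ⟨?_, ?_⟩
      · intro x' hx'
        obtain ⟨h1, h2⟩ := Finset.mem_filter.1 hx'
        have h2' : x' c ≤ i := h2
        refine Finset.mem_filter.2 ⟨h1, ?_⟩
        rcases hcomp' x' h1 x hx with h | h
        · exact h
        · have := h c hc
          omega
      · intro hsub
        have hxx : x ∈ X'.filter (fun x' => ∀ c ∈ C, x' c ≤ x c) :=
          Finset.mem_filter.2 ⟨hx, fun _ _ => le_refl _⟩
        have h3 := (Finset.mem_filter.1 (hsub hxx)).2
        have h3' : x c ≤ i := h3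
        omega
  have hQ : ∀ x ∈ X', ‖Qx x‖ ≤ 2 * δ * σ := by
    intro x hx
    have e : Qx x = ∑ z ∈ S.filter (fun z => r z < rk x), sg (s z) (y z) := by
      have e1 : S.filter (fun z => r z < rk x) = C.sigma (fun c => range (x c)) := by
        ext ⟨c, i⟩
        simp only [hS, Finset.mem_filter, Finset.mem_sigma, Finset.mem_range]
        constructor
        · rintro ⟨⟨hc, hi⟩, h⟩
          exact ⟨hc, (hiff x hx c hc i hi).1 h⟩
        · rintro ⟨hc, hi⟩
          have hi' : i < m c := lt_of_lt_of_le hi (hle' x hx c hc)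
          exact ⟨⟨hc, hi'⟩, (hiff x hx c hc i hi').2 hi⟩
      rw [e1, Finset.sum_sigma]
      apply Finset.sum_congr rfl
      intro c hc
      rw [diff_take_sum (m c) (q c) (sc c) (hlen c hc) (x c) (hle' x hx c hc)]
    rw [e]
    exact hs _
  set q' : κ → List E := fun c => plusL (sc c) (q c) ++ minusL (sc c) (q c) with hq'
  refine ⟨q', fun c hc => plus_minus_perm (m c) (q c) (sc c) (hlen c hc), ?_, ?_⟩
  · intro x hx
    have hxX' : x ∈ X' := Finset.mem_insert_of_mem hx
    have e : (2:ℝ) • Dev C q' x = Dev C q (fun c => 2 * x c) + Qx x := by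
      simp only [Dev, hQx, Finset.smul_sum, ← Finset.sum_add_distrib]
      apply Finset.sum_congr rfl
      intro c hc
      have hl := plus_length (m c) (q c) (sc c) (hlen c hc)
      have : (q' c).take (x c) = (plusL (sc c) (q c)).take (x c) := by
        rw [hq']
        apply List.take_append_of_le_length
        rw [hl]
        exact hle x hx c hc
      rw [this, plus_take_sum (m c) (q c) (sc c) (hlen c hc)]
    have h1 : ‖(2:ℝ) • Dev C q' x‖ ≤ A + 2 * δ * σ := by
      rw [e]
      exact (norm_add_le _ _).trans (add_le_add (hA x hx) (hQ x hxX'))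
    rw [norm_smul] at h1
    simp only [Real.norm_eq_abs, abs_two] at h1
    linarith
  · intro x hx
    have hxX' : x ∈ X' := Finset.mem_insert_of_mem hx
    have hmX' : m ∈ X' := Finset.mem_insert_self _ _
    have e : (2:ℝ) • Dev C q' (fun c => m c + x c)
        = Qx m + (Dev C q (fun c => 2 * x c) - Qx x) := by
      simp only [Dev, hQx, Finset.smul_sum, ← Finset.sum_add_distrib, ← Finset.sum_sub_distrib]
      apply Finset.sum_congr rfl
      intro c hc
      have hl := plus_length (m c) (q c) (sc c) (hlen c hc)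
      have e1 : (q' c).take (m c + x c)
          = plusL (sc c) (q c) ++ (minusL (sc c) (q c)).take (x c) := by
        rw [hq', List.take_append, List.take_of_length_le (by omega)]
        congr 2
        omega
      have e2 : (plusL (sc c) (q c)).take (m c) = plusL (sc c) (q c) := by
        rw [List.take_of_length_le (by omega)]
      have e3 := plus_take_sum (m c) (q c) (sc c) (hlen c hc) (m c)
      rw [e2] at e3
      have e4 : (q c).take (2 * m c) = q c := by
        rw [List.take_of_length_le (by rw [hlen c hc])]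
      rw [e4, hsum c hc, zero_add] at e3
      rw [e1, List.sum_append, smul_add, e3, minus_take_sum (m c) (q c) (sc c) (hlen c hc)]
    have h1 : ‖(2:ℝ) • Dev C q' (fun c => m c + x c)‖ ≤ 2 * δ * σ + (A + 2 * δ * σ) := by
      rw [e]
      refine (norm_add_le _ _).trans (add_le_add (hQ m hmX') ?_)
      exact (norm_sub_le _ _).trans (add_le_add (hA x hx) (hQ x hxX'))
    rw [norm_smul] at h1
    simp only [Real.norm_eq_abs, abs_two] at h1
    linarith

/-- **Periodic coloured doubling**: all the queues can be rearranged so that the deviation is small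
along all periods of a chain. -/
theorem periodic {κ : Type*} [DecidableEq κ] (C : Finset κ) (T : ℕ) {δ σ : ℝ} {N : ℕ} (hδ : 0 < δ)
    (hσ : SignOracle E N σ) :
    ∀ (J : ℕ) (a : κ → ℕ) (n₁ : ℕ → κ → ℕ) (q : κ → List E) (B : ℝ),
      (∀ t t', t ≤ t' → ∀ c ∈ C, n₁ t c ≤ n₁ t' c) → (∀ t, ∀ c ∈ C, n₁ t c ≤ a c) →
      (∀ c ∈ C, (q c).length = 2 ^ J * a c) → (∀ c ∈ C, (q c).sum = 0) →
      (∀ c ∈ C, ∀ v ∈ q c, ‖v‖ ≤ δ) → (∑ c ∈ C, (q c).length ≤ N) →
      (∀ t ≤ T, ‖Dev C q (fun c => 2 ^ J * n₁ t c)‖ ≤ B) →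
      ∃ q' : κ → List E, (∀ c ∈ C, (q' c).Perm (q c)) ∧
        ∀ π < 2 ^ J, ∀ t ≤ T, ‖Dev C q' (fun c => π * a c + n₁ t c)‖
          ≤ B / 2 ^ J + 2 * (2 * δ * σ) := by
  classical
  have hσ0 := hσ.nonneg
  have hE : 0 ≤ 2 * δ * σ := by positivity
  intro J
  induction J with
  | zero =>
    intro a n₁ q B _ _ _ _ _ _ hB
    refine ⟨q, fun _ _ => List.Perm.refl _, ?_⟩
    intro π hπ t ht
    have hπ0 : π = 0 := by simpa using hπ
    subst hπ0
    have := hB t ht
    simp only [pow_zero, one_mul, zero_mul, zero_add, div_one] at this ⊢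
    linarith
  | succ J ih =>
    intro a n₁ q B hmono hle hlen hsum hnorm hN hB
    obtain ⟨q₁, hq₁, hb₁⟩ := ih (fun c => 2 * a c) (fun t c => 2 * n₁ t c) q B
      (fun t t' htt c hc => Nat.mul_le_mul_left 2 (hmono t t' htt c hc))
      (fun t c hc => Nat.mul_le_mul_left 2 (hle t c hc))
      (fun c hc => by rw [hlen c hc, pow_succ]; ring) hsum hnorm hN
      (fun t ht => by
        have := hB t ht
        simp only [pow_succ] at this
        convert this using 3
        ext c
        ring)
    set A := B / 2 ^ J + 2 * (2 * δ * σ) with hA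
    set m : κ → ℕ := fun c => 2 ^ J * a c with hm
    set idx := (range (2 ^ J)) ×ˢ (range (T + 1)) with hidx
    set X : Finset (κ → ℕ) := idx.image (fun p => fun c => p.1 * a c + n₁ p.2 c) with hX
    have hq₁len : ∀ c ∈ C, (q₁ c).length = 2 * m c := by
      intro c hc
      rw [(hq₁ c hc).length_eq, hlen c hc, hm, pow_succ]
      ring
    have hq₁sum : ∀ c ∈ C, (q₁ c).sum = 0 := fun c hc => by rw [(hq₁ c hc).sum_eq, hsum c hc]
    have hq₁norm : ∀ c ∈ C, ∀ v ∈ q₁ c, ‖v‖ ≤ δ := fun c hc v hv =>
      hnorm c hc v ((hq₁ c hc).subset hv)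
    have hNm : ∑ c ∈ C, m c ≤ N := by
      refine le_trans ?_ hN
      apply Finset.sum_le_sum
      intro c hc
      rw [hlen c hc, pow_succ]
      simp only [hm]
      nlinarith [Nat.zero_le (2 ^ J * a c)]
    have hlex : ∀ (π π' t t' : ℕ), π < π' → ∀ c ∈ C, π * a c + n₁ t c ≤ π' * a c + n₁ t' c := by
      intro π π' t t' h c hc
      have h1 := hle t c hc
      have h2 : (π + 1) * a c ≤ π' * a c := Nat.mul_le_mul_right _ h
      nlinarith [Nat.zero_le (n₁ t' c)]
    have hcomp : ∀ x ∈ X, ∀ x' ∈ X, (∀ c ∈ C, x c ≤ x' c) ∨ (∀ c ∈ C, x' c ≤ x c) := by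
      intro x hx x' hx'
      obtain ⟨⟨π, t⟩, _, rfl⟩ := Finset.mem_image.1 hx
      obtain ⟨⟨π', t'⟩, _, rfl⟩ := Finset.mem_image.1 hx'
      rcases lt_trichotomy π π' with h | h | h
      · exact Or.inl (hlex π π' t t' h)
      · subst h
        rcases le_total t t' with h | h
        · exact Or.inl (fun c hc => Nat.add_le_add_left (hmono t t' h c hc) _)
        · exact Or.inr (fun c hc => Nat.add_le_add_left (hmono t' t h c hc) _)
      · exact Or.inr (hlex π' π t' t h)
    have hXle : ∀ x ∈ X, ∀ c ∈ C, x c ≤ m c := by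
      intro x hx c hc
      obtain ⟨⟨π, t⟩, hp, rfl⟩ := Finset.mem_image.1 hx
      obtain ⟨h1, _⟩ := Finset.mem_product.1 hp
      have h1' : π < 2 ^ J := Finset.mem_range.1 h1
      have h2 := hle t c hc
      have h3 : (π + 1) * a c ≤ 2 ^ J * a c := Nat.mul_le_mul_right _ h1'
      simp only [hm]
      nlinarith
    have hXA : ∀ x ∈ X, ‖Dev C q₁ (fun c => 2 * x c)‖ ≤ A := by
      intro x hx
      obtain ⟨⟨π, t⟩, hp, rfl⟩ := Finset.mem_image.1 hx
      obtain ⟨h1, h2⟩ := Finset.mem_product.1 hp
      have := hb₁ π (Finset.mem_range.1 h1) t (Nat.lt_succ_iff.1 (Finset.mem_range.1 h2))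
      convert this using 3
      ext c
      ring
    obtain ⟨q₂, hq₂, hb2, hb3⟩ := round_step C q₁ m X hδ hσ hq₁len hq₁sum hq₁norm hNm hcomp hXle hXA
    refine ⟨q₂, fun c hc => (hq₂ c hc).trans (hq₁ c hc), ?_⟩
    intro π hπ t ht
    have hpow : (2:ℝ) ^ (J + 1) = 2 * 2 ^ J := by rw [pow_succ]; ring
    have hA' : A / 2 = B / 2 ^ (J + 1) + 2 * δ * σ := by
      rw [hA, hpow]
      field_simp
    by_cases hπJ : π < 2 ^ J
    · have hx : (fun c => π * a c + n₁ t c) ∈ X :=
        Finset.mem_image.2 ⟨(π, t), Finset.mem_product.2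
          ⟨Finset.mem_range.2 hπJ, Finset.mem_range.2 (by omega)⟩, rfl⟩
      have := hb2 _ hx
      have e : (A + 2 * δ * σ) / 2 = A / 2 + (2 * δ * σ) / 2 := by ring
      rw [e, hA'] at this
      refine this.trans ?_
      linarith
    · obtain ⟨π', rfl⟩ : ∃ π', π = 2 ^ J + π' := ⟨π - 2 ^ J, by omega⟩
      have hπ' : π' < 2 ^ J := by
        rw [pow_succ] at hπ
        omega
      have hx : (fun c => π' * a c + n₁ t c) ∈ X :=
        Finset.mem_image.2 ⟨(π', t), Finset.mem_product.2
          ⟨Finset.mem_range.2 hπ', Finset.mem_range.2 (by omega)⟩, rfl⟩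
      have := hb3 _ hx
      rw [hA'] at this
      have e : (fun c => (2 ^ J + π') * a c + n₁ t c) = (fun c => m c + (π' * a c + n₁ t c)) := by
        ext c
        simp only [hm]
        ring
      rw [e]
      refine this.trans ?_
      linarith

end Vale.Agent.Lib.P262C
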